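import Vale.Agent.P207.N5.H391.St8Q
import Vale.Agent.P207.N5.H832.RateP
import Vale.Agent.P207.N5.Geo.Asm

/-!
# P207, strict quarter pinching: step 8 from the picture

`V.H391.step8 : V.Step8`.
-/

open Set Filter Topology Metric MeasureTheory
open scoped ContDiff ENNReal

noncomputable section

namespace Vale.Agent.P207.N4.V.H391

open Vale.Agent.P207.N4.H391
open Vale.Agent.P207.N3

/-- **Step 8.** -/
theorem step8 [Dim] : Step8 := by
  intro Γ X B V _ _ _ _ _ _ _ _ _ _ _ _ _ _ _ L P hA hS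
  obtain ⟨S, -⟩ := exists_st8Q P.Af hS P.S.A.D_eq P.Ra.a_pos P.Ra.a_le_b P.Ra.pinch
    (Vale.Agent.P207.N4.V.H832.rateP P.toPic)
  exact ⟨S⟩

end Vale.Agent.P207.N4.V.H391
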