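import Vale.Agent.P207.N5.H391.LeafT

/-!
# P207, b < 2a, step 8: the mixed fourth derivative of the four point function
-/

set_option maxSynthPendingDepth 3

open Set Filter Topology Metric
open scoped ContDiff

noncomputable section

namespace Vale.Agent.P207.N4.V.H391

open Vale.Agent.P207.N4.H391

open Vale.Agent.P207.N3
open Vale.Agent.P207.N4.H391.Q (V4 MM act act_apply fam)

variable [Dim]

variable {Γ X B : Type} [Group Γ] [MetricSpace X] [ProperSpace X] [MulAction Γ X]
  [IsIsometricSMul Γ X] [TopologicalSpace B] [CompactSpace B] [T2Space B] [MulAction Γ B]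
  [ContinuousConstSMul Γ B] {L : Leaf Γ X B}

variable (F : Aff L) {D : B → B → ℝ}

/-- the four inclusions -/
def inc : Fin 4 → (E2 →L[ℝ] E2 × E2) :=
  ![ContinuousLinearMap.inl ℝ E2 E2, ContinuousLinearMap.inl ℝ E2 E2,
    ContinuousLinearMap.inr ℝ E2 E2, ContinuousLinearMap.inr ℝ E2 E2]

/-- the mixed fourth derivative -/
def theta (F : Aff L) (D : B → B → ℝ) (x : X) : V4 E2 :=
  (iteratedFDeriv ℝ 4 (bta F D x) 0).compContinuousLinearMap inc

theorem theta_apply (x : X) (v : Fin 4 → E2) : theta F D x v =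
    iteratedFDeriv ℝ 4 (bta F D x) 0 ![(v 0, 0), (v 1, 0), (0, v 2), (0, v 3)] := by
  rw [theta, ContinuousMultilinearMap.compContinuousLinearMap_apply]
  congr 1
  funext i
  fin_cases i <;> rfl

theorem theta_cont (hS : SmB L D) : Continuous (theta F D) := by
  have h1 : Continuous fun x : X => iteratedFDeriv ℝ 4 (bta F D x) 0 :=
    ((bta_jc' F hS).cont 4).comp_continuous (f := fun x : X => (x, (0 : E2 × E2)))
      (by fun_prop) fun x => zero_SB F x
  exact (ContinuousMultilinearMap.compContinuousLinearMapL (F := ℝ) inc).continuous.comp h1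

theorem theta_smul (hD : ∀ x, D (L.em x) (L.ep x) = L.lv x + L.lp x) (g : Γ) (x : X) :
    theta F D (g • x) = theta F D x := by
  have h1 : bta F D (g • x) =ᶠ[𝓝 0] bta F D x := by
    have ho : IsOpen {p : E2 × E2 | (x, p) ∈ SB F} :=
      (isOpen_SB F).preimage (by fun_prop)
    filter_upwards [ho.mem_nhds (zero_SB F x)] with p hp
    exact bta_smul F hD g x hp.2.2
  rw [theta, theta, (h1.iteratedFDeriv ℝ 4).self_of_nhds]

/-- two frames on one geodesic -/
theorem bta_same {x y : X} (h1 : L.em x = L.em y) (h2 : L.ep x = L.ep y) (p : E2 × E2) :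
    bta F D y (F.lin (L.flip x) (L.flip y) p.1, F.lin x y p.2) = bta F D x p := by
  have hf1 : L.em (L.flip x) = L.em (L.flip y) := by rw [em_flip, em_flip, h2]
  have hf2 : L.ep (L.flip x) = L.ep (L.flip y) := by rw [ep_flip, ep_flip, h1]
  simp only [bta, pt_same F hf1 hf2, pt_same F h1 h2, h1, h2]

theorem theta_same (hS : SmB L D) : Equi F (theta F D) := by
  intro x y h1 h2
  set A : (E2 × E2) ≃L[ℝ] E2 × E2 := (F.lin (L.flip x) (L.flip y)).prodCongr (F.lin x y) with hA
  have e1 : bta F D x = bta F D y ∘ A := by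
    funext p
    exact (bta_same F h1 h2 p).symm
  have e3 : iteratedFDeriv ℝ 4 (bta F D x) 0 =
      (iteratedFDeriv ℝ 4 (bta F D y) 0).compContinuousLinearMap
        fun _ => (A : E2 × E2 →L[ℝ] E2 × E2) := by
    have e4 := A.iteratedFDerivWithin_comp_right (bta F D y) uniqueDiffOn_univ
      (mem_univ (A 0)) 4
    rw [preimage_univ, iteratedFDerivWithin_univ, iteratedFDerivWithin_univ, map_zero] at e4
    rw [e1]
    exact e4
  ext v
  rw [act_apply, theta_apply, theta_apply, e3]
  rw [ContinuousMultilinearMap.compContinuousLinearMap_apply]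
  congr 1
  funext i
  fin_cases i
  · change ((F.lin (L.flip x) (L.flip y)) (v 0), (0 : E2)) = A (v 0, 0)
    rw [hA]
    simp
  · change ((F.lin (L.flip x) (L.flip y)) (v 1), (0 : E2)) = A (v 1, 0)
    rw [hA]
    simp
  · change ((0 : E2), (F.lin x y) (v 2)) = A (0, v 2)
    rw [hA]
    simp
  · change ((0 : E2), (F.lin x y) (v 3)) = A (0, v 3)
    rw [hA]
    simp

/-- **the mixed fourth derivative is parallel along the stable leaves** -/
theorem par_of_type (hS : SmB L D) (hD : ∀ x, D (L.em x) (L.ep x) = L.lv x + L.lp x) {a b : ℝ}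
    (ha : 0 < a) (hab : b < 2 * a) (hR : ∀ t, 0 ≤ t → ∀ x q,
      Real.exp (a * t) * ‖q‖ ≤ ‖F.P t x q‖ ∧ ‖F.P t x q‖ ≤ Real.exp (b * t) * ‖q‖)
    {ρ C : ℝ} (hC : 0 ≤ C)
    (hlip : ∀ x z, ‖z‖ < ρ → ‖trn F hS (theta F D) x z - theta F D x‖ ≤ C * ‖z‖)
    (x : X) {z : E2} (hz : ‖z‖ < ρ) : trn F hS (theta F D) x z = theta F D x :=
  trn_eq F hS (theta_cont F hS) (theta_smul F hD) (theta_same F hS) ha hab hR hC hlip x hz

end Vale.Agent.P207.N4.V.H391
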