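import Vale.Agent.P207.N5.H391.PC
import Vale.Agent.P207.N5.H391.AffS8

/-!
# P207, line N5, step 8: the tensor is parallel along the stable leaves
-/

open Set Filter Topology Metric
open scoped ContDiff

noncomputable section

namespace Vale.Agent.P207.N4.V.H391

open Vale.Agent.P207.N4.H391

open Vale.Agent.P207.N3

variable [Dim]

variable {Γ X B : Type} [Group Γ] [MetricSpace X] [ProperSpace X] [MulAction Γ X]
  [IsIsometricSMul Γ X] [TopologicalSpace B] [CompactSpace B] [T2Space B] [MulAction Γ B]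
  [ContinuousConstSMul Γ B] {L : Leaf Γ X B}

variable (F : Aff L) {D : B → B → ℝ}

/-! ### changes of frame -/

theorem lin_trans {x y w : X} (h1 : L.em x = L.em y) (h2 : L.em y = L.em w) (q : E2) :
    F.lin x w q = F.lin y w (F.lin x y q) := by
  have hw : L.ep w ≠ L.em x := by rw [h1, h2]; exact (L.em_ne_ep w).symm
  -- the point with coordinate `q + ch x (ep w)`
  set η := F.pt x (q + F.ch x (L.ep w)) with hη
  have hne : η ≠ L.em x := F.pt_ne x _
  have e1 := ch_leaf F (h1.trans h2) hne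
  have e2 := ch_leaf F h1 hne
  have e3 := ch_leaf F h2 (η := η) (by rw [← h1]; exact hne)
  have e4 := ch_leaf F h1 hw
  have e5 : F.ch x η = q + F.ch x (L.ep w) := F.ch_pt x _
  rw [e5, add_sub_cancel_right] at e1
  rw [← e1, e3, e2, e4, e5, ← map_sub]
  congr 2
  abel

theorem ch_same {x y : X} (h1 : L.em x = L.em y) (h2 : L.ep x = L.ep y) {η : B}
    (hη : η ≠ L.em x) : F.ch y η = F.lin x y (F.ch x η) := by
  rw [ch_leaf F h1 hη, ← h2, ch_ep, sub_zero]

theorem pt_same {x y : X} (h1 : L.em x = L.em y) (h2 : L.ep x = L.ep y) (q : E2) :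
    F.pt y (F.lin x y q) = F.pt x q := by
  have h := F.leaf x y h1 q
  rwa [← h2, ch_ep, sub_zero] at h

theorem kp_same (hS : SmB L D) {x y : X} (h1 : L.em x = L.em y) (h2 : L.ep x = L.ep y) (u : E2) :
    kpe hS h2 u = F.lin x y u := by
  have e1 := tr_hasFDerivAt F hS h2
  have e2 : (fun u => F.ch y (F.pt x u)) = F.lin x y := by
    funext u
    rw [ch_same F h1 h2 (F.pt_ne x u), F.ch_pt]
  rw [e2] at e1
  have e3 := e1.unique (F.lin x y : E2 →L[ℝ] E2).hasFDerivAt
  exact DFunLike.congr_fun e3 u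

include F in
theorem kp_trans (hS : SmB L D) {x y w : X} (h1 : L.ep x = L.ep y) (h2 : L.ep y = L.ep w)
    (u : E2) : kpe hS (h1.trans h2) u = kpe hS h2 (kpe hS h1 u) := by
  have e := (affS F hS).kp_comp h1 (h1.trans h2)
  rw [kp_kpe F hS (h1.trans h2), kp_kpe F hS h2, kp_kpe F hS h1] at e
  exact DFunLike.congr_fun e u

/-! ### parallel -/

variable (P : X → E2 →L[ℝ] E2 →L[ℝ] E2 →L[ℝ] E2)

/-- `P` is parallel from `x` to `y` -/
def PT (F : Aff L) (hS : SmB L D) (P : X → E2 →L[ℝ] E2 →L[ℝ] E2 →L[ℝ] E2) (x y : X) : Prop :=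
  ∀ h : L.ep x = L.ep y, ∀ u α, P y (kpe hS h u) (kpe hS h u) (F.lin (L.flip x) (L.flip y) α) =
    kpe hS h (P x u u α)

variable {P}

theorem PT.trans {hS : SmB L D} {x y w : X} (h1 : L.ep x = L.ep y) (h2 : L.ep y = L.ep w)
    (hxy : PT F hS P x y) (hyw : PT F hS P y w) : PT F hS P x w := by
  intro h u α
  have e1 : F.lin (L.flip x) (L.flip w) α =
      F.lin (L.flip y) (L.flip w) (F.lin (L.flip x) (L.flip y) α) :=
    lin_trans F (by rw [em_flip, em_flip, h1]) (by rw [em_flip, em_flip, h2]) α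
  rw [e1, kp_trans F hS h1 h2, kp_trans F hS h1 h2, hyw h2, hxy h1]

/-- two frames on one geodesic -/
theorem PT_same {hS : SmB L D} (hder : ∀ x u, HasFDerivAt
      (fun z => (kap F hS x z).symm (hlo F x z u)) ((1 / 2 : ℝ) • P x u u) 0)
    {x y : X} (h1 : L.em x = L.em y) (h2 : L.ep x = L.ep y) : PT F hS P x y := by
  intro h u α
  set A := F.lin x y with hA
  set A' := F.lin (L.flip x) (L.flip y) with hA'
  have hf1 : L.em (L.flip x) = L.em (L.flip y) := by rw [em_flip, em_flip, h2]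
  have hf2 : L.ep (L.flip x) = L.ep (L.flip y) := by rw [ep_flip, ep_flip, h1]
  have e0 : ∀ᶠ z in 𝓝 (0 : E2), F.pt x u ≠ F.pt (L.flip x) z := by
    have hc : Continuous fun z : E2 => F.pt (L.flip x) z :=
      F.pt_cont.comp (continuous_const.prodMk continuous_id)
    refine (isOpen_ne_fun continuous_const hc).mem_nhds ?_
    change F.pt x u ≠ F.pt (L.flip x) 0
    rw [pt_flip_zero]
    exact F.pt_ne x u
  have e1 : (fun z => (kap F hS y (A' z)).symm (hlo F y (A' z) (A u))) =ᶠ[𝓝 0]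
      fun z => A ((kap F hS x z).symm (hlo F x z u)) := by
    filter_upwards [e0] with z hz
    have g1 : L.em (mv F x z) = L.em (mv F y (A' z)) := by
      rw [em_mv, em_mv, hA', pt_same F hf1 hf2]
    have g2 : L.ep (mv F x z) = L.ep (mv F y (A' z)) := by rw [ep_mv, ep_mv, h2]
    have g3 : hlo F y (A' z) (A u) = F.lin (mv F x z) (mv F y (A' z)) (hlo F x z u) := by
      rw [hlo, hlo, hA, pt_same F h1 h2]
      exact ch_same F g1 g2 (by rw [em_mv]; exact hz)
    have g4 : ∀ w, kap F hS y (A' z) (A w) =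
        F.lin (mv F x z) (mv F y (A' z)) (kap F hS x z w) := by
      intro w
      rw [← kp_same F hS g1 g2, hA, ← kp_same F hS h1 h2]
      change kpe hS _ (kpe hS _ w) = kpe hS _ (kpe hS _ w)
      rw [← kp_trans F hS, ← kp_trans F hS]
    rw [ContinuousLinearEquiv.symm_apply_eq, g4, ContinuousLinearEquiv.apply_symm_apply, g3]
  have e2 : HasFDerivAt (fun z => (kap F hS y z).symm (hlo F y z (A u)))
      ((1 / 2 : ℝ) • P y (A u) (A u)) (A' 0) := by
    rw [map_zero]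
    exact hder y (A u)
  have e3 := e2.comp (0 : E2) (A' : E2 →L[ℝ] E2).hasFDerivAt
  have e4 := (A : E2 →L[ℝ] E2).hasFDerivAt.comp (0 : E2) (hder x u)
  have e5 := e3.unique (e4.congr_of_eventuallyEq e1)
  have e6 := DFunLike.congr_fun e5 α
  change (1 / 2 : ℝ) • P y (A u) (A u) (A' α) = A ((1 / 2 : ℝ) • P x u u α) at e6
  rw [map_smul] at e6
  have e7 := smul_right_injective _ (by norm_num : (1 / 2 : ℝ) ≠ 0) e6
  rw [kp_same F hS h1 h2, kp_same F hS h1 h2]
  exact e7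

theorem PT_all {hS : SmB L D} {a b : ℝ} (ha : 0 < a) (hR : ∀ t, 0 ≤ t → ∀ x q,
      Real.exp (a * t) * ‖q‖ ≤ ‖F.P t x q‖ ∧ ‖F.P t x q‖ ≤ Real.exp (b * t) * ‖q‖)
    (hder : ∀ x u, HasFDerivAt
      (fun z => (kap F hS x z).symm (hlo F x z u)) ((1 / 2 : ℝ) • P x u u) 0) {ρ : ℝ}
    (hρ : 0 < ρ) (hsm : ∀ x z, ‖z‖ < ρ → PT F hS P x (mv F x z)) {x y : X}
    (h : L.ep x = L.ep y) : PT F hS P x y := by
  have hy : L.em y ≠ L.em (L.flip x) := by rw [em_flip, h]; exact L.em_ne_ep y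
  set q := F.ch (L.flip x) (L.em y) with hq
  obtain ⟨T, hT0, hT⟩ : ∃ T : ℝ, 0 ≤ T ∧ Real.exp (-(a * T)) * ‖q‖ < ρ := by
    have h1 : Tendsto (fun T : ℝ => Real.exp (-(a * T)) * ‖q‖) atTop (𝓝 (0 * ‖q‖)) := by
      refine Tendsto.mul_const _ (Real.tendsto_exp_neg_atTop_nhds_zero.comp ?_)
      exact tendsto_id.const_mul_atTop ha
    rw [zero_mul] at h1
    obtain ⟨T, hT⟩ := ((h1.eventually (gt_mem_nhds hρ)).and (eventually_ge_atTop 0)).exists
    exact ⟨T, hT.2, hT.1⟩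
  set xT := L.φ T x with hxT
  have hem : L.em xT = L.em x := L.em_φ _ _
  have hep : L.ep xT = L.ep x := ep_φ _ _
  set zT := F.ch (L.flip xT) (L.em y) with hzT
  have hyT : L.em y ≠ L.em (L.flip xT) := by rw [em_flip, hep, h]; exact L.em_ne_ep y
  have h2 : zT = F.P (-T) (L.flip x) q := by
    rw [hzT, hxT, L.flip_φ, ch_φ F (-T) (L.flip x) hy]
  have h3 : ‖zT‖ < ρ := by
    have e1 := P_neg F T (L.φ (-T) (L.flip x)) q
    rw [← L.φ_add, add_neg_cancel, L.φ_zero] at e1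
    have e2 := (hR T hT0 (L.φ (-T) (L.flip x)) ((F.P T (L.φ (-T) (L.flip x))).symm q)).1
    rw [ContinuousLinearEquiv.apply_symm_apply, ← e1, ← h2] at e2
    have e3 : ‖zT‖ ≤ Real.exp (-(a * T)) * ‖q‖ := by
      rw [Real.exp_neg, inv_mul_eq_div, le_div_iff₀ (Real.exp_pos _), mul_comm]
      exact e2
    exact e3.trans_lt hT
  have h4 : L.em (mv F xT zT) = L.em y := by rw [em_mv, hzT, F.pt_ch _ _ hyT]
  have h5 : L.ep (mv F xT zT) = L.ep xT := ep_mv F _ _
  have p1 : PT F hS P x xT := PT_same F hder hem.symm hep.symm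
  have p2 : PT F hS P xT (mv F xT zT) := hsm xT zT h3
  have p3 : PT F hS P (mv F xT zT) y := PT_same F hder h4 (h5.trans (hep.trans h))
  exact PT.trans F hep.symm (hep.trans h) p1 (PT.trans F h5.symm (h5.trans (hep.trans h)) p2 p3)

end Vale.Agent.P207.N4.V.H391
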