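import Vale.Agent.P207.N5.H391.BtA
import Vale.Agent.P207.N4.H266.TauB

/-!
# P207, line N5, step 8: the four point function is smooth, with uniform bounds
-/

open Set Filter Topology Metric
open scoped ContDiff

noncomputable section

namespace Vale.Agent.P207.N4.V.H391

open Vale.Agent.P207.N4.H391

open Vale.Agent.P207.N3
open Vale.Agent.P207.N4.Ten (ep_cont φ_cont_t ball_sub mem_ball0 mem_cball0 tau_eq mem_dm
  tau_mem e_tau tau_symm_mem tau_tau_symm dm_zero_of_ep tau_zero_of_ep)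

variable [Dim]

variable {Γ X B : Type} [Group Γ] [MetricSpace X] [ProperSpace X] [MulAction Γ X]
  [IsIsometricSMul Γ X] [TopologicalSpace B] [CompactSpace B] [T2Space B] [MulAction Γ B]
  [ContinuousConstSMul Γ B] {L : Leaf Γ X B}

variable (F : Aff L) {D : B → B → ℝ}

theorem dsc_spec {x : X} {q : E2} (hq : q ∈ closedBall (0 : E2) 2) :
    F.dsc x q ∈ ball (0 : E2) 1 ∧ L.e x (F.dsc x q) = F.pt x q := by
  obtain ⟨u, hu, hu2⟩ := F.unit x q hq
  have hu3 : u ∈ closedBall (0 : E2) 3 := by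
    rw [mem_ball_zero_iff] at hu
    rw [mem_closedBall_zero_iff]
    linarith
  have h1 : F.pt x q ∈ L.e x '' closedBall (0 : E2) 3 := ⟨u, hu3, hu2⟩
  have h2 := Function.invFunOn_mem h1
  have h3 := Function.invFunOn_eq h1
  have h4 : F.dsc x q = u := L.e_inj x h2 hu3 (by rw [hu2]; exact h3)
  rw [h4]
  exact ⟨hu, hu2⟩

theorem dsc_mem3 {x : X} {q : E2} (hq : q ∈ closedBall (0 : E2) 2) :
    F.dsc x q ∈ ball (0 : E2) 3 :=
  ball_subset_ball (by norm_num) (dsc_spec F hq).1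

theorem dsc_zero (x : X) : F.dsc x 0 = 0 := by
  have h1 := dsc_spec F (x := x) (q := 0) (by simp)
  have h2 : F.dsc x 0 ∈ closedBall (0 : E2) 3 := ball_sub (dsc_mem3 F (by simp))
  refine L.e_inj x h2 mem_cball0 ?_
  rw [h1.2, F.pt_zero, L.e_zero]

/-- the domain of the four point function -/
def SB (F : Aff L) : Set (X × (E2 × E2)) :=
  {p | p.2.1 ∈ ball (0 : E2) 2 ∧ p.2.2 ∈ ball (0 : E2) 2 ∧
    F.pt (L.flip p.1) p.2.1 ≠ F.pt p.1 p.2.2}

theorem isOpen_SB : IsOpen (SB F) := by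
  have h1 : Continuous fun p : X × (E2 × E2) => F.pt (L.flip p.1) p.2.1 :=
    F.pt_cont.comp ((L.flip_cont.comp continuous_fst).prodMk
      (continuous_fst.comp continuous_snd))
  have h2 : Continuous fun p : X × (E2 × E2) => F.pt p.1 p.2.2 :=
    F.pt_cont.comp (continuous_fst.prodMk (continuous_snd.comp continuous_snd))
  exact (isOpen_ball.preimage (by fun_prop)).inter
    ((isOpen_ball.preimage (by fun_prop)).inter (isOpen_ne_fun h1 h2))

/-- `D` of two smooth points -/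
theorem ff_jc (hS : SmB L D) {S : Set (X × (E2 × E2))} {a b : X → E2 × E2 → E2} (ha : JC a S)
    (hb : JC b S) (ha3 : ∀ p ∈ S, a p.1 p.2 ∈ ball (0 : E2) 3)
    (hb3 : ∀ p ∈ S, b p.1 p.2 ∈ ball (0 : E2) 3)
    (hne : ∀ p ∈ S, L.e (L.flip p.1) (a p.1 p.2) ≠ L.e p.1 (b p.1 p.2)) :
    JC (fun x p => D (L.e (L.flip x) (a x p)) (L.e x (b x p))) S := by
  have h1 := hS.f_jc.pullback (c := fun x : X => (L.flip x, x))
    (L.flip_cont.prodMk continuous_id)
  exact h1.comp' (ha.prodMk hb) fun p hp => ⟨ha3 p hp, hb3 p hp, hne p hp⟩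

theorem bta_jc (hS : SmB L D) (hd : JC F.dsc (univ ×ˢ ball 0 2)) : JC (bta F D) (SB F) := by
  have ho := isOpen_SB F
  have hfst : JC (fun (_ : X) (p : E2 × E2) => p.1) (SB F) := (JC.id ho).fst
  have hsnd : JC (fun (_ : X) (p : E2 × E2) => p.2) (SB F) := (JC.id ho).snd
  have ha : JC (fun x (p : E2 × E2) => F.dsc (L.flip x) p.1) (SB F) :=
    (hd.pullback (c := fun x : X => L.flip x) L.flip_cont).comp' hfst
      fun p hp => ⟨mem_univ _, hp.1⟩
  have hb : JC (fun x (p : E2 × E2) => F.dsc x p.2) (SB F) :=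
    hd.comp' hsnd fun p hp => ⟨mem_univ _, hp.2.1⟩
  have h0 : JC (fun (_ : X) (_ : E2 × E2) => (0 : E2)) (SB F) := JC.const ho 0
  have ha3 : ∀ p ∈ SB F, F.dsc (L.flip p.1) p.2.1 ∈ ball (0 : E2) 3 := fun p hp =>
    dsc_mem3 F (ball_subset_closedBall hp.1)
  have hb3 : ∀ p ∈ SB F, F.dsc p.1 p.2.2 ∈ ball (0 : E2) 3 := fun p hp =>
    dsc_mem3 F (ball_subset_closedBall hp.2.1)
  have hea : ∀ p ∈ SB F, L.e (L.flip p.1) (F.dsc (L.flip p.1) p.2.1)
      = F.pt (L.flip p.1) p.2.1 := fun p hp => (dsc_spec F (ball_subset_closedBall hp.1)).2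
  have heb : ∀ p ∈ SB F, L.e p.1 (F.dsc p.1 p.2.2) = F.pt p.1 p.2.2 := fun p hp =>
    (dsc_spec F (ball_subset_closedBall hp.2.1)).2
  have he0 : ∀ x : X, L.e (L.flip x) 0 = L.em x := fun x => by rw [L.e_zero, ep_flip]
  have he1 : ∀ x : X, L.e x 0 = L.ep x := fun x => L.e_zero x
  have h1 := ff_jc hS ha hb ha3 hb3 fun p hp => by rw [hea p hp, heb p hp]; exact hp.2.2
  have h2 := ff_jc hS h0 hb (fun _ _ => mem_ball0) hb3 fun p hp => by
    rw [he0, heb p hp]; exact (F.pt_ne _ _).symm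
  have h3 := ff_jc hS ha h0 ha3 (fun _ _ => mem_ball0) fun p hp => by
    rw [he1, hea p hp]; exact pt_flip_ne F _ _
  have h4 := ff_jc hS h0 h0 (fun _ _ => mem_ball0) (fun _ _ => mem_ball0) fun p hp => by
    rw [he0, he1]; exact L.em_ne_ep _
  refine (((h1.sub h2).sub h3).add h4).congr fun p hp => ?_
  simp only [bta, hea p hp, heb p hp, he0, he1]

/-- the uniform radius of transversality -/
theorem exists_rad : ∃ r > 0, r < 2 ∧ ∀ (x : X) (z u : E2), z ∈ closedBall (0 : E2) r →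
    u ∈ closedBall (0 : E2) r → F.pt (L.flip x) z ≠ F.pt x u := by
  obtain ⟨K, hK, hK'⟩ := L.cocompact
  have h0 : K ×ˢ {((0 : E2), (0 : E2))} ⊆ SB F := by
    rintro ⟨x, p⟩ ⟨-, hp⟩
    rw [mem_singleton_iff] at hp
    change p = (0, 0) at hp
    subst hp
    refine ⟨by simp, by simp, ?_⟩
    change F.pt (L.flip x) 0 ≠ F.pt x 0
    rw [pt_flip_zero, F.pt_zero]
    exact L.em_ne_ep x
  obtain ⟨U, V, hU, hV, hKU, hV0, hUV⟩ :=
    generalized_tube_lemma hK isCompact_singleton (isOpen_SB F) h0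
  obtain ⟨ε, hε, hεV⟩ := Metric.isOpen_iff.1 hV (0, 0) (hV0 rfl)
  refine ⟨min (ε / 2) 1, by positivity, (min_le_right _ _).trans_lt (by norm_num), ?_⟩
  intro x z u hz hu
  obtain ⟨g, hg⟩ := hK' x
  have h1 : ((z, u) : E2 × E2) ∈ ball ((0, 0) : E2 × E2) ε := by
    rw [← ball_prod_same]
    rw [mem_closedBall_zero_iff] at hz hu
    have h2 := min_le_left (ε / 2) (1 : ℝ)
    exact ⟨by rw [mem_ball_zero_iff]; linarith, by rw [mem_ball_zero_iff]; linarith⟩
  have h2 : (g • x, ((z, u) : E2 × E2)) ∈ SB F := hUV ⟨hKU hg, hεV h1⟩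
  have h3 := h2.2.2
  change F.pt (L.flip (g • x)) z ≠ F.pt (g • x) u at h3
  rw [L.flip_smul, F.pt_smul, F.pt_smul] at h3
  exact fun h => h3 (by rw [h])

/-- uniform bounds -/
theorem bta_bound (hS : SmB L D) (hD : ∀ x, D (L.em x) (L.ep x) = L.lv x + L.lp x)
    (hd : JC F.dsc (univ ×ˢ ball 0 2)) {r : ℝ} (hr2 : r < 2)
    (hr : ∀ (x : X) (z u : E2), z ∈ closedBall (0 : E2) r → u ∈ closedBall (0 : E2) r →
      F.pt (L.flip x) z ≠ F.pt x u) (k : ℕ) :
    ∃ C, ∀ x, ∀ p ∈ closedBall (0 : E2 × E2) r, ‖iteratedFDeriv ℝ k (bta F D x) p‖ ≤ C := by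
  obtain ⟨K, hK, hK'⟩ := L.cocompact
  have hsub : ∀ (x : X), ∀ p ∈ closedBall (0 : E2 × E2) r, (x, p) ∈ SB F := by
    intro x p hp
    rw [mem_closedBall_zero_iff, Prod.norm_def] at hp
    have h1 : ‖p.1‖ ≤ r := (le_max_left _ _).trans hp
    have h2 : ‖p.2‖ ≤ r := (le_max_right _ _).trans hp
    refine ⟨by rw [mem_ball_zero_iff]; linarith, by rw [mem_ball_zero_iff]; linarith, ?_⟩
    exact hr x p.1 p.2 (by rwa [mem_closedBall_zero_iff]) (by rwa [mem_closedBall_zero_iff])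
  obtain ⟨C, hC⟩ := (bta_jc F hS hd).bound (hK.prod (isCompact_closedBall (0 : E2 × E2) r))
    (fun p hp => hsub p.1 p.2 hp.2) k
  refine ⟨C, fun x p hp => ?_⟩
  obtain ⟨g, hg⟩ := hK' x
  have h2 : bta F D x =ᶠ[𝓝 p] bta F D (g • x) := by
    filter_upwards [(isOpen_slice (isOpen_SB F) x).mem_nhds (hsub x p hp)] with w hw
    exact (bta_smul F hD g x hw.2.2).symm
  rw [(h2.iteratedFDeriv ℝ k).self_of_nhds]
  exact hC (g • x, p) ⟨hg, hp⟩

end Vale.Agent.P207.N4.V.H391
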