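import Vale.Agent.P207.N5.H391.BtB
import Vale.Agent.P207.N5.H547.AffLemA

/-!
# P207, line N5, step 8: the flow and the derivatives of the holonomies in the affine coordinates
-/

open Set Filter Topology Metric
open scoped ContDiff

noncomputable section

namespace Vale.Agent.P207.N4.V.H391

open Vale.Agent.P207.N4.H391

open Vale.Agent.P207.N3
open Vale.Agent.P207.N4.Ten (ep_cont ball_sub mem_ball0 mem_cball0 tau_eq mem_dm
  tau_mem e_tau tau_symm_mem tau_tau_symm dm_zero_of_ep tau_zero_of_ep isOpen_dm2 isOpen_dm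
  dm_smul fderiv_tau_smul)

variable [Dim]

variable {Γ X B : Type} [Group Γ] [MetricSpace X] [ProperSpace X] [MulAction Γ X]
  [IsIsometricSMul Γ X] [TopologicalSpace B] [CompactSpace B] [T2Space B] [MulAction Γ B]
  [ContinuousConstSMul Γ B] {L : Leaf Γ X B}

variable (F : Aff L) {D : B → B → ℝ}

/-! ### the flow -/

theorem P_neg (t : ℝ) (x : X) (q : E2) : F.P (-t) (L.φ t x) q = (F.P t x).symm q := by
  have h1 := F.flow (-t) (L.φ t x) q
  rw [← L.φ_add, neg_add_cancel, L.φ_zero] at h1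
  have h2 := F.flow t x ((F.P t x).symm q)
  rw [ContinuousLinearEquiv.apply_symm_apply] at h2
  exact F.pt_inj x (h1.trans h2)

theorem ch_φ (t : ℝ) (x : X) {η : B} (h : η ≠ L.em x) :
    F.ch (L.φ t x) η = F.P t x (F.ch x η) := by
  have h1 := F.flow t x (F.ch x η)
  rw [F.pt_ch x η h] at h1
  conv_lhs => rw [← h1, F.ch_pt]

theorem ch_ep (x : X) : F.ch x (L.ep x) = 0 := by
  rw [← F.pt_zero, F.ch_pt]

/-- the one step data -/
def ψ (L : Leaf Γ X B) (x : X) : X := L.φ (-1) x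

theorem φ_ψ (x : X) : L.φ 1 (ψ L x) = x := by
  rw [ψ, ← L.φ_add, add_neg_cancel, L.φ_zero]

theorem ψ_surj : Function.Surjective (ψ L) := fun x => ⟨L.φ 1 x, by
  rw [ψ, ← L.φ_add, neg_add_cancel, L.φ_zero]⟩

def L1 (x : X) : E2 ≃L[ℝ] E2 := F.P 1 (ψ L x)

def L1' (x : X) : E2 ≃L[ℝ] E2 := (F.P 1 (L.flip x)).symm

theorem flip_ψ (x : X) : L.flip (ψ L x) = L.φ 1 (L.flip x) := by
  rw [ψ, L.flip_φ, neg_neg]

theorem em_ψ (x : X) : L.em (ψ L x) = L.em x := L.em_φ _ _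

theorem ep_ψ (x : X) : L.ep (ψ L x) = L.ep x := ep_φ _ _

theorem P_ψ (x : X) (q : E2) : F.P (-1) x q = (L1 F x).symm q := by
  have h := P_neg F 1 (ψ L x) q
  rw [φ_ψ] at h
  exact h

/-- the chart after one step -/
theorem ch_L1 (x : X) {η : B} (h : η ≠ L.em x) : F.ch x η = L1 F x (F.ch (ψ L x) η) := by
  have h1 := ch_φ F 1 (ψ L x) (η := η) (by rwa [em_ψ])
  rwa [φ_ψ] at h1

theorem pt_L1 (x : X) (q : E2) : F.pt x (L1 F x q) = F.pt (ψ L x) q := by
  have h1 := F.flow 1 (ψ L x) q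
  rwa [φ_ψ] at h1

theorem pt_L1_symm (x : X) (q : E2) : F.pt (ψ L x) ((L1 F x).symm q) = F.pt x q := by
  rw [← pt_L1, ContinuousLinearEquiv.apply_symm_apply]

theorem pt_L1' (x : X) (q : E2) : F.pt (L.flip x) (L1' F x q) = F.pt (L.flip (ψ L x)) q := by
  have h1 := F.flow 1 (L.flip x) (L1' F x q)
  rw [L1', ContinuousLinearEquiv.apply_symm_apply] at h1
  rw [flip_ψ]
  exact h1.symm

/-- the chart after one step, stable side -/
theorem ch_L1' (x : X) {η : B} (h : η ≠ L.ep x) :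
    F.ch (L.flip x) η = L1' F x (F.ch (L.flip (ψ L x)) η) := by
  have h1 := ch_φ F 1 (L.flip x) (η := η) (by rwa [em_flip])
  rw [flip_ψ, h1, L1', ContinuousLinearEquiv.symm_apply_apply]

theorem equi1 (x : X) (z u : E2) :
    bta F D x (z, u) = bta F D (ψ L x) ((L1' F x).symm z, (L1 F x).symm u) := by
  have h := bta_flow F D (-1) x z u
  rw [neg_neg, P_ψ] at h
  exact h.symm

theorem mv_ψ (x : X) (z : E2) : ψ L (mv F x (L1' F x z)) = mv F (ψ L x) z := by
  have h := mv_φ F (-1) x (L1' F x z)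
  rw [neg_neg, L1', ContinuousLinearEquiv.apply_symm_apply] at h
  exact h.symm

theorem mv_ψ' (x : X) (z : E2) : ψ L (mv F x z) = mv F (ψ L x) ((L1' F x).symm z) := by
  have h := mv_ψ F x ((L1' F x).symm z)
  rwa [ContinuousLinearEquiv.apply_symm_apply] at h

/-! ### the change of frame on the stable leaf -/

theorem kap'_eq (x : X) (z α : E2) :
    kap' F x z α = F.ch (L.flip (mv F x z)) (F.pt (L.flip x) (z + α)) := by
  have h := pt_kap' F x z (z + α)
  rw [add_sub_cancel_left] at h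
  rw [← h, F.ch_pt]

theorem flow_kap' (x : X) (z α : E2) :
    L1' F (mv F x (L1' F x z)) (kap' F (ψ L x) z α) = kap' F x (L1' F x z) (L1' F x α) := by
  set w := mv F x (L1' F x z) with hw
  have h1 : mv F (ψ L x) z = ψ L w := (mv_ψ F x z).symm
  rw [kap'_eq, kap'_eq, ← map_add, pt_L1', h1, ← hw]
  refine (ch_L1' F w ?_).symm
  rw [hw, ep_mv, ← ep_ψ x]
  exact pt_flip_ne F (ψ L x) (z + α)

/-! ### the derivative of the holonomy at the common end point -/

theorem tr_hasFDerivAt (hS : SmB L D) {x y : X} (h : L.ep x = L.ep y) :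
    HasFDerivAt (fun u => F.ch y (F.pt x u)) (fderiv ℝ (L.τ x y) 0) 0 := by
  have h0 : (0 : E2) ∈ L.dm x y := dm_zero_of_ep h
  have hτ0 : L.τ x y 0 = 0 := tau_zero_of_ep h
  have hd0 : F.dsc x 0 = 0 := F.dsc_zero x
  have hd : HasFDerivAt (F.dsc x) (F.c⁻¹ • ContinuousLinearMap.id ℝ E2) 0 := by
    rw [← F.der_dsc_zero x]
    exact (F.dsc_diff (F.zero_dT x)).hasFDerivAt
  have hc : HasFDerivAt (F.cu y) (F.c • ContinuousLinearMap.id ℝ E2) 0 := by
    have h1 : fderiv ℝ (F.cu y) 0 = F.c • ContinuousLinearMap.id ℝ E2 := F.der_zero y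
    rw [← h1]
    exact (F.cu_diff y mem_ball0).hasFDerivAt
  have hτ : HasFDerivAt (L.τ x y) (fderiv ℝ (L.τ x y) 0) 0 :=
    hS.tau_jc.hasFDerivAt (p := ((x, y), (0 : E2))) h0
  have h1 : HasFDerivAt (fun u => F.cu y (L.τ x y (F.dsc x u)))
      ((F.c • ContinuousLinearMap.id ℝ E2) ∘L (fderiv ℝ (L.τ x y) 0) ∘L
        (F.c⁻¹ • ContinuousLinearMap.id ℝ E2)) 0 := by
    have e1 : HasFDerivAt (L.τ x y) (fderiv ℝ (L.τ x y) 0) (F.dsc x 0) := by rw [hd0]; exact hτ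
    have e2 := e1.comp (0 : E2) hd
    have e3 : HasFDerivAt (F.cu y) (F.c • ContinuousLinearMap.id ℝ E2)
        ((L.τ x y ∘ F.dsc x) 0) := by
      rw [Function.comp_apply, hd0, hτ0]
      exact hc
    exact e3.comp (0 : E2) e2
  have h2 : (F.c • ContinuousLinearMap.id ℝ E2) ∘L (fderiv ℝ (L.τ x y) 0) ∘L
      (F.c⁻¹ • ContinuousLinearMap.id ℝ E2) = fderiv ℝ (L.τ x y) 0 := by
    ext1 v
    change F.c • fderiv ℝ (L.τ x y) 0 (F.c⁻¹ • v) = fderiv ℝ (L.τ x y) 0 v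
    rw [map_smul, smul_smul, mul_inv_cancel₀ F.c_pos.ne', one_smul]
  rw [h2] at h1
  refine h1.congr_of_eventuallyEq ?_
  have h3 : ∀ᶠ u in 𝓝 (0 : E2), F.dsc x u ∈ L.dm x y := by
    have e1 : ContinuousAt (F.dsc x) 0 := hd.continuousAt
    exact e1.eventually ((isOpen_dm L x y).mem_nhds (by rwa [hd0]))
  have h4 : ∀ᶠ u in 𝓝 (0 : E2), u ∈ ball (0 : E2) F.rad :=
    isOpen_ball.mem_nhds (mem_ball_self (by linarith [F.two_lt_rad]))
  filter_upwards [h3, h4] with u hu hu2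
  change F.ch y (F.pt x u) = F.ch y (L.e y (L.τ x y (F.dsc x u)))
  rw [e_tau hu, F.e_dsc (F.ball_dT x hu2)]

theorem tau_inv (hS : SmB L D) {x y : X} (h : L.ep x = L.ep y) (v : E2) :
    fderiv ℝ (L.τ y x) 0 (fderiv ℝ (L.τ x y) 0 v) = v := by
  have h0 : (0 : E2) ∈ L.dm x y := dm_zero_of_ep h
  have hτ0 : L.τ x y 0 = 0 := tau_zero_of_ep h
  have e1 : HasFDerivAt (L.τ x y) (fderiv ℝ (L.τ x y) 0) 0 :=
    hS.tau_jc.hasFDerivAt (p := ((x, y), (0 : E2))) h0
  have e2 : HasFDerivAt (L.τ y x) (fderiv ℝ (L.τ y x) 0) (L.τ x y 0) := by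
    rw [hτ0]
    exact hS.tau_jc.hasFDerivAt (p := ((y, x), (0 : E2))) (dm_zero_of_ep h.symm)
  have e3 := e2.comp (0 : E2) e1
  have e4 : L.τ y x ∘ L.τ x y =ᶠ[𝓝 0] id := by
    filter_upwards [(isOpen_dm L x y).mem_nhds h0] with u hu
    exact tau_tau_symm hu
  have e5 := e3.unique ((hasFDerivAt_id (0 : E2)).congr_of_eventuallyEq e4)
  exact DFunLike.congr_fun e5 v

/-- the derivative of the holonomy at the common end point -/
def kpe (hS : SmB L D) {x y : X} (h : L.ep x = L.ep y) : E2 ≃L[ℝ] E2 :=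
  ContinuousLinearEquiv.equivOfInverse (fderiv ℝ (L.τ x y) 0) (fderiv ℝ (L.τ y x) 0)
    (tau_inv hS h) (tau_inv hS h.symm)

theorem kpe_coe (hS : SmB L D) {x y : X} (h : L.ep x = L.ep y) :
    (kpe hS h : E2 →L[ℝ] E2) = fderiv ℝ (L.τ x y) 0 := rfl

theorem kpe_symm_coe (hS : SmB L D) {x y : X} (h : L.ep x = L.ep y) :
    ((kpe hS h).symm : E2 →L[ℝ] E2) = fderiv ℝ (L.τ y x) 0 := rfl

/-- the derivative of the holonomy from `x` to the frame `mv F x z` -/
def kap (hS : SmB L D) (x : X) (z : E2) : E2 ≃L[ℝ] E2 := kpe hS (ep_mv F x z).symm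

theorem g_deriv (hS : SmB L D) (x : X) (z : E2) :
    HasFDerivAt (hlo F x z) (kap F hS x z : E2 →L[ℝ] E2) 0 :=
  tr_hasFDerivAt F hS (ep_mv F x z).symm

/-- the holonomy commutes with the flow -/
theorem hlo_flow {x : X} {z u : E2} (h : F.pt x (L1 F x u) ≠ F.pt (L.flip x) (L1' F x z)) :
    hlo F x (L1' F x z) (L1 F x u) = L1 F (mv F x (L1' F x z)) (hlo F (ψ L x) z u) := by
  rw [hlo, hlo, ch_L1 F _ (by rwa [em_mv]), mv_ψ, pt_L1]

theorem flow_kap (hS : SmB L D) (x : X) (z u : E2) :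
    L1 F (mv F x (L1' F x z)) (kap F hS (ψ L x) z u) = kap F hS x (L1' F x z) (L1 F x u) := by
  have e1 := ((L1 F (mv F x (L1' F x z)) : E2 →L[ℝ] E2).hasFDerivAt).comp (0 : E2)
    (g_deriv F hS (ψ L x) z)
  have e2 : HasFDerivAt (hlo F x (L1' F x z)) (kap F hS x (L1' F x z) : E2 →L[ℝ] E2)
      ((L1 F x : E2 →L[ℝ] E2) 0) := by
    rw [map_zero]
    exact g_deriv F hS x (L1' F x z)
  have e3 := e2.comp (0 : E2) (L1 F x : E2 →L[ℝ] E2).hasFDerivAt
  have e4 : ∀ᶠ u in 𝓝 (0 : E2), F.pt x (L1 F x u) ≠ F.pt (L.flip x) (L1' F x z) := by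
    have hc : Continuous fun u : E2 => F.pt x (L1 F x u) :=
      F.pt_cont.comp (continuous_const.prodMk (L1 F x).continuous)
    refine (isOpen_ne_fun hc continuous_const).mem_nhds ?_
    change F.pt x (L1 F x 0) ≠ F.pt (L.flip x) (L1' F x z)
    rw [map_zero, F.pt_zero]
    exact (pt_flip_ne F x _).symm
  have e5 : (fun u => hlo F x (L1' F x z) (L1 F x u)) =ᶠ[𝓝 0]
      fun u => L1 F (mv F x (L1' F x z)) (hlo F (ψ L x) z u) := by
    filter_upwards [e4] with u hu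
    exact hlo_flow F hu
  have e6 := e1.unique (e3.congr_of_eventuallyEq e5.symm)
  exact DFunLike.congr_fun e6 u

theorem flow_hlo (hS : SmB L D) (x : X) (u : E2) : ∀ᶠ z in 𝓝 (0 : E2),
    (kap F hS x z).symm (hlo F x z u) =
      L1 F x ((kap F hS (ψ L x) ((L1' F x).symm z)).symm
        (hlo F (ψ L x) ((L1' F x).symm z) ((L1 F x).symm u))) := by
  have e4 : ∀ᶠ z in 𝓝 (0 : E2), F.pt x u ≠ F.pt (L.flip x) z := by
    have hc : Continuous fun z : E2 => F.pt (L.flip x) z :=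
      F.pt_cont.comp (continuous_const.prodMk continuous_id)
    refine (isOpen_ne_fun continuous_const hc).mem_nhds ?_
    change F.pt x u ≠ F.pt (L.flip x) 0
    rw [pt_flip_zero]
    exact F.pt_ne x u
  filter_upwards [e4] with z hz
  have h1 := hlo_flow F (x := x) (z := (L1' F x).symm z) (u := (L1 F x).symm u) (by
    rw [ContinuousLinearEquiv.apply_symm_apply, ContinuousLinearEquiv.apply_symm_apply]
    exact hz)
  rw [ContinuousLinearEquiv.apply_symm_apply, ContinuousLinearEquiv.apply_symm_apply] at h1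
  rw [ContinuousLinearEquiv.symm_apply_eq, h1]
  have h2 := flow_kap F hS x ((L1' F x).symm z) ((kap F hS (ψ L x) ((L1' F x).symm z)).symm
    (hlo F (ψ L x) ((L1' F x).symm z) ((L1 F x).symm u)))
  rw [ContinuousLinearEquiv.apply_symm_apply, ContinuousLinearEquiv.apply_symm_apply] at h2
  exact h2

end Vale.Agent.P207.N4.V.H391
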