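import Vale.Agent.P207.N5.H391.BtC

/-!
# P207, line N5, step 8: the mixed derivative of the four point function, and the uniform bounds
-/

open Set Filter Topology Metric
open scoped ContDiff

noncomputable section

namespace Vale.Agent.P207.N4.V.H391

open Vale.Agent.P207.N4.H391

open Vale.Agent.P207.N3
open Vale.Agent.P207.N4.Ten (ep_cont ball_sub mem_ball0 mem_cball0 tau_eq mem_dm
  tau_mem e_tau tau_symm_mem tau_tau_symm dm_zero_of_ep tau_zero_of_ep isOpen_dm2 isOpen_dm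
  dm_smul fderiv_tau_smul)

variable [Dim]

variable {Γ X B : Type} [Group Γ] [MetricSpace X] [ProperSpace X] [MulAction Γ X]
  [IsIsometricSMul Γ X] [TopologicalSpace B] [CompactSpace B] [T2Space B] [MulAction Γ B]
  [ContinuousConstSMul Γ B] {L : Leaf Γ X B}

/-! ### continuous invariant families are bounded -/

theorem bnd_cont (L : Leaf Γ X B) {E G : Type} [NormedAddCommGroup E] [NormedSpace ℝ E]
    [ProperSpace E] [NormedAddCommGroup G] {f : X → E → G}
    (hf : Continuous fun p : X × E => f p.1 p.2) (hinv : ∀ (g : Γ) x z, f (g • x) z = f x z)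
    (ρ : ℝ) : ∃ C, 0 ≤ C ∧ ∀ x, ∀ z ∈ closedBall (0 : E) ρ, ‖f x z‖ ≤ C := by
  obtain ⟨K, hK, hK'⟩ := L.cocompact
  obtain ⟨C, hC⟩ := (hK.prod (isCompact_closedBall (0 : E) ρ)).exists_bound_of_continuousOn
    hf.continuousOn
  refine ⟨max C 0, le_max_right _ _, fun x z hz => ?_⟩
  obtain ⟨g, hg⟩ := hK' x
  rw [← hinv g]
  exact (hC (g • x, z) ⟨hg, hz⟩).trans (le_max_left _ _)

variable (F : Aff L) {D : B → B → ℝ}

theorem mv_cont : Continuous fun p : X × E2 => mv F p.1 p.2 := by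
  have h1 : Continuous fun p : X × E2 => F.pt (L.flip p.1) p.2 :=
    F.pt_cont.comp ((L.flip_cont.comp continuous_fst).prodMk continuous_snd)
  exact L.hol_cont.comp_continuous (f := fun p : X × E2 => (F.pt (L.flip p.1) p.2, p.1))
    (h1.prodMk continuous_fst) fun p => pt_flip_ne F p.1 p.2

theorem kap_cont (hS : SmB L D) :
    Continuous fun p : X × E2 => (kap F hS p.1 p.2 : E2 →L[ℝ] E2) := by
  have h1 := hS.tau_jc.fderiv.continuousOn
  refine h1.comp_continuous (f := fun p : X × E2 => ((p.1, mv F p.1 p.2), (0 : E2)))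
    ((continuous_fst.prodMk (mv_cont F)).prodMk continuous_const) fun p => ?_
  exact dm_zero_of_ep (ep_mv F p.1 p.2).symm

theorem kap_symm_cont (hS : SmB L D) :
    Continuous fun p : X × E2 => ((kap F hS p.1 p.2).symm : E2 →L[ℝ] E2) := by
  have h1 := hS.tau_jc.fderiv.continuousOn
  refine h1.comp_continuous (f := fun p : X × E2 => ((mv F p.1 p.2, p.1), (0 : E2)))
    (((mv_cont F).prodMk continuous_fst).prodMk continuous_const) fun p => ?_
  exact dm_zero_of_ep (ep_mv F p.1 p.2)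

theorem kap_smul (hS : SmB L D) (g : Γ) (x : X) (z : E2) :
    (kap F hS (g • x) z : E2 →L[ℝ] E2) = kap F hS x z := by
  change fderiv ℝ (L.τ (g • x) (mv F (g • x) z)) 0 = fderiv ℝ (L.τ x (mv F x z)) 0
  rw [mv_smul]
  exact fderiv_tau_smul g (dm_zero_of_ep (ep_mv F x z).symm)

theorem kap_symm_smul (hS : SmB L D) (g : Γ) (x : X) (z : E2) :
    ((kap F hS (g • x) z).symm : E2 →L[ℝ] E2) = (kap F hS x z).symm := by
  change fderiv ℝ (L.τ (mv F (g • x) z) (g • x)) 0 = fderiv ℝ (L.τ (mv F x z) x) 0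
  rw [mv_smul]
  exact fderiv_tau_smul g (dm_zero_of_ep (ep_mv F x z))

theorem kap_bound (hS : SmB L D) (ρ : ℝ) : ∃ C, 0 ≤ C ∧ ∀ x, ∀ z ∈ closedBall (0 : E2) ρ,
    ‖(kap F hS x z : E2 →L[ℝ] E2)‖ ≤ C :=
  bnd_cont L (f := fun x z => (kap F hS x z : E2 →L[ℝ] E2)) (kap_cont F hS) (kap_smul F hS) ρ

theorem kap_symm_bound (hS : SmB L D) (ρ : ℝ) : ∃ C, 0 ≤ C ∧ ∀ x, ∀ z ∈ closedBall (0 : E2) ρ,
    ‖((kap F hS x z).symm : E2 →L[ℝ] E2)‖ ≤ C :=
  bnd_cont L (f := fun x z => ((kap F hS x z).symm : E2 →L[ℝ] E2)) (kap_symm_cont F hS)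
    (kap_symm_smul F hS) ρ

theorem kap'_smul (g : Γ) (x : X) (z α : E2) : kap' F (g • x) z α = kap' F x z α := by
  rw [kap'_eq, kap'_eq, mv_smul, L.flip_smul, L.flip_smul, F.pt_smul, F.ch_smul]
  rw [em_flip, ep_mv]
  exact pt_flip_ne F x _

theorem kap'_cont : Continuous fun p : X × (E2 × E2) => kap' F p.1 p.2.1 p.2.2 := by
  have h1 : (fun p : X × (E2 × E2) => kap' F p.1 p.2.1 p.2.2) =
      fun p => F.ch (L.flip (mv F p.1 p.2.1)) (F.pt (L.flip p.1) (p.2.1 + p.2.2)) :=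
    funext fun p => kap'_eq F _ _ _
  rw [h1]
  have h2 : Continuous fun p : X × (E2 × E2) => mv F p.1 p.2.1 :=
    (mv_cont F).comp (continuous_fst.prodMk (continuous_fst.comp continuous_snd))
  have h3 : Continuous fun p : X × (E2 × E2) => F.pt (L.flip p.1) (p.2.1 + p.2.2) :=
    F.pt_cont.comp ((L.flip_cont.comp continuous_fst).prodMk
      ((continuous_fst.comp continuous_snd).add (continuous_snd.comp continuous_snd)))
  refine F.ch_cont.comp_continuous
    (f := fun p : X × (E2 × E2) => (L.flip (mv F p.1 p.2.1), F.pt (L.flip p.1) (p.2.1 + p.2.2)))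
    ((L.flip_cont.comp h2).prodMk h3) fun p => ?_
  change F.pt (L.flip p.1) (p.2.1 + p.2.2) ≠ L.em (L.flip (mv F p.1 p.2.1))
  rw [em_flip, ep_mv]
  exact pt_flip_ne F _ _

theorem kap'_bound (ρ : ℝ) : ∃ C, 0 ≤ C ∧ ∀ x, ∀ z ∈ closedBall (0 : E2) ρ,
    ‖(kap' F x z : E2 →L[ℝ] E2)‖ ≤ C := by
  obtain ⟨C, hC0, hC⟩ := bnd_cont L (f := fun x (p : E2 × E2) => kap' F x p.1 p.2)
    (kap'_cont F) (fun g x p => kap'_smul F g x p.1 p.2) (max ρ 1)
  refine ⟨C, hC0, fun x z hz => ?_⟩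
  refine ContinuousLinearMap.opNorm_le_of_unit_norm (𝕜 := ℝ) hC0 fun α hα => ?_
  refine hC x (z, α) ?_
  rw [mem_closedBall_zero_iff] at hz ⊢
  rw [Prod.norm_def]
  exact max_le_max hz hα.le

/-! ### the radius of the base change -/

theorem exists_rho {r : ℝ} (hr : 0 < r) : ∃ ρ, 0 < ρ ∧ ρ ≤ r ∧ ∀ (x : X) (z u : E2), ‖z‖ < ρ →
    ‖u‖ < ρ → ‖hlo F x z u‖ < r := by
  obtain ⟨K, hK, hK'⟩ := L.cocompact
  set S : Set (X × (E2 × E2)) := {p | F.pt (L.flip p.1) p.2.1 ≠ F.pt p.1 p.2.2} with hSdef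
  have hpt1 : Continuous fun p : X × (E2 × E2) => F.pt (L.flip p.1) p.2.1 :=
    F.pt_cont.comp ((L.flip_cont.comp continuous_fst).prodMk
      (continuous_fst.comp continuous_snd))
  have hpt2 : Continuous fun p : X × (E2 × E2) => F.pt p.1 p.2.2 :=
    F.pt_cont.comp (continuous_fst.prodMk (continuous_snd.comp continuous_snd))
  have hSo : IsOpen S := isOpen_ne_fun hpt1 hpt2
  have hc : ContinuousOn (fun p : X × (E2 × E2) => hlo F p.1 p.2.1 p.2.2) S := by
    refine F.ch_cont.comp (f := fun p : X × (E2 × E2) => (mv F p.1 p.2.1, F.pt p.1 p.2.2))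
      (((mv_cont F).comp (continuous_fst.prodMk
        (continuous_fst.comp continuous_snd))).prodMk hpt2).continuousOn fun p hp => ?_
    change F.pt p.1 p.2.2 ≠ L.em (mv F p.1 p.2.1)
    rw [em_mv]
    exact fun h => hp h.symm
  have hT : IsOpen (S ∩ (fun p : X × (E2 × E2) => hlo F p.1 p.2.1 p.2.2) ⁻¹' ball 0 r) :=
    hc.isOpen_inter_preimage hSo isOpen_ball
  have h0 : K ×ˢ {((0 : E2), (0 : E2))} ⊆
      S ∩ (fun p : X × (E2 × E2) => hlo F p.1 p.2.1 p.2.2) ⁻¹' ball 0 r := by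
    rintro ⟨x, p⟩ ⟨-, hp⟩
    rw [mem_singleton_iff] at hp
    change p = (0, 0) at hp
    subst hp
    constructor
    · change F.pt (L.flip x) 0 ≠ F.pt x 0
      rw [pt_flip_zero, F.pt_zero]
      exact L.em_ne_ep x
    · change hlo F x 0 0 ∈ ball (0 : E2) r
      rw [hlo_zero]
      exact mem_ball_self hr
  obtain ⟨U, V, hU, hV, hKU, hV0, hUV⟩ :=
    generalized_tube_lemma hK isCompact_singleton hT h0
  obtain ⟨ε, hε, hεV⟩ := Metric.isOpen_iff.1 hV (0, 0) (hV0 rfl)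
  refine ⟨min ε r, lt_min hε hr, min_le_right _ _, ?_⟩
  intro x z u hz hu
  obtain ⟨g, hg⟩ := hK' x
  have h1 : ((z, u) : E2 × E2) ∈ ball ((0, 0) : E2 × E2) ε := by
    rw [← ball_prod_same]
    exact ⟨by rw [mem_ball_zero_iff]; exact hz.trans_le (min_le_left _ _),
      by rw [mem_ball_zero_iff]; exact hu.trans_le (min_le_left _ _)⟩
  have h2 := hUV (⟨hKU hg, hεV h1⟩ : (g • x, ((z, u) : E2 × E2)) ∈ U ×ˢ V)
  have h4 : F.pt (L.flip (g • x)) z ≠ F.pt (g • x) u := h2.1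
  have h5 : hlo F (g • x) z u ∈ ball (0 : E2) r := h2.2
  have h6 : hlo F (g • x) z u = hlo F x z u := by
    rw [hlo, hlo, mv_smul, F.pt_smul, F.ch_smul]
    rw [em_mv]
    rw [L.flip_smul, F.pt_smul, F.pt_smul] at h4
    exact fun h => h4 (by rw [h])
  rw [h6, mem_ball_zero_iff] at h5
  exact h5

/-! ### the mixed derivative -/

/-- the mixed derivative -/
def mix (F : Aff L) (D : B → B → ℝ) (x : X) : E2 →L[ℝ] E2 →L[ℝ] ℝ :=
  fderiv ℝ (fun u => fderiv ℝ (fun z => bta F D x (z, u)) 0) 0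

theorem hd2 (F : Aff L) : JC F.dsc (univ ×ˢ ball 0 2) :=
  F.dsc_jc.mono (isOpen_univ.prod isOpen_ball) fun p hp =>
    F.closedBall_dT p.1 (ball_subset_closedBall hp.2)

theorem bta_jc' (hS : SmB L D) : JC (bta F D) (SB F) := bta_jc F hS (hd2 F)

/-- the first partial derivative, along `z = 0` -/
theorem par1_jc (hS : SmB L D) : JC (fun x (u : E2) => fderiv ℝ (fun z => bta F D x (z, u)) 0)
    {p : X × E2 | (p.1, ((0 : E2), p.2)) ∈ SB F} := by
  have ho : IsOpen {p : X × E2 | (p.1, ((0 : E2), p.2)) ∈ SB F} :=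
    (isOpen_SB F).preimage (by fun_prop)
  have h1 := (bta_jc' F hS).fderiv.comp' ((JC.const ho (0 : E2)).prodMk (JC.id ho))
    fun p hp => hp
  refine (h1.clm ((ContinuousLinearMap.compL ℝ E2 (E2 × E2) ℝ).flip
    (ContinuousLinearMap.inl ℝ E2 E2))).congr fun p hp => ?_
  have h2 : HasFDerivAt (bta F D p.1) (fderiv ℝ (bta F D p.1) (0, p.2)) ((0 : E2), p.2) :=
    (bta_jc' F hS).hasFDerivAt hp
  have h3 : HasFDerivAt (fun z : E2 => (z, p.2)) (ContinuousLinearMap.inl ℝ E2 E2) 0 :=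
    hasFDerivAt_prodMk_left 0 p.2
  exact (h2.comp (0 : E2) h3).fderiv

theorem zero_SB (x : X) : (x, ((0 : E2), (0 : E2))) ∈ SB F := by
  refine ⟨by simp, by simp, ?_⟩
  change F.pt (L.flip x) 0 ≠ F.pt x 0
  rw [pt_flip_zero, F.pt_zero]
  exact L.em_ne_ep x

theorem mix_cont (hS : SmB L D) : Continuous (mix F D) := by
  have h1 := (par1_jc F hS).fderiv.continuousOn
  exact h1.comp_continuous (f := fun x : X => (x, (0 : E2))) (by fun_prop) fun x => zero_SB F x

theorem mix_smul (hD : ∀ x, D (L.em x) (L.ep x) = L.lv x + L.lp x) (g : Γ) (x : X) :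
    mix F D (g • x) = mix F D x := by
  refine Filter.EventuallyEq.fderiv_eq ?_
  have ho : IsOpen {u : E2 | (x, ((0 : E2), u)) ∈ SB F} := (isOpen_SB F).preimage (by fun_prop)
  filter_upwards [ho.mem_nhds (zero_SB F x)] with u hu
  refine Filter.EventuallyEq.fderiv_eq ?_
  have ho2 : IsOpen {z : E2 | (x, (z, u)) ∈ SB F} := (isOpen_SB F).preimage (by fun_prop)
  filter_upwards [ho2.mem_nhds hu] with z hz
  exact bta_smul F hD g x hz.2.2

theorem mix_apply (hS : SmB L D) (x : X) (v : E2) : mix F D x v =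
    F.c⁻¹ • (fderiv ℝ (fun b => fderiv ℝ (fun a => D (L.e (L.flip x) a) (L.e x b)) 0) 0
      (F.c⁻¹ • v)) := by
  set G1 : E2 → E2 →L[ℝ] ℝ := fun b => fderiv ℝ (fun a => D (L.e (L.flip x) a) (L.e x b)) 0
    with hG1
  have hod : (((L.flip x, x), ((0 : E2), (0 : E2))) : (X × X) × (E2 × E2)) ∈ od L := by
    refine ⟨mem_ball0, mem_ball0, ?_⟩
    change L.e (L.flip x) 0 ≠ L.e x 0
    rw [L.e_zero, L.e_zero, ep_flip]
    exact L.em_ne_ep x
  have hodo : IsOpen {p : E2 × E2 | ((L.flip x, x), p) ∈ od L} :=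
    isOpen_slice hS.f_jc.isOpen (L.flip x, x)
  -- the derivatives of the inner functions
  have hin : ∀ b : E2, ((L.flip x, x), ((0 : E2), b)) ∈ od L →
      HasFDerivAt (fun a => D (L.e (L.flip x) a) (L.e x b)) (G1 b) 0 := by
    intro b hb
    have h1 : HasFDerivAt (ff L D (L.flip x, x)) _ ((0 : E2), b) := hS.f_jc.hasFDerivAt hb
    have h2 := h1.comp (0 : E2) (hasFDerivAt_prodMk_left (𝕜 := ℝ) (0 : E2) b)
    exact h2.differentiableAt.hasFDerivAt
  have hds : ∀ y : X, HasFDerivAt (F.dsc y) (F.c⁻¹ • ContinuousLinearMap.id ℝ E2) 0 := by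
    intro y
    rw [← F.der_dsc_zero y]
    exact (F.dsc_diff (F.zero_dT y)).hasFDerivAt
  have hrad : (0 : E2) ∈ ball (0 : E2) F.rad := mem_ball_self (by linarith [F.two_lt_rad])
  have hin2 : ∀ b : E2, ((L.flip x, x), ((0 : E2), b)) ∈ od L →
      HasFDerivAt (fun z => D (F.pt (L.flip x) z) (L.e x b)) (F.c⁻¹ • G1 b) 0 := by
    intro b hb
    have h1 : HasFDerivAt (fun a => D (L.e (L.flip x) a) (L.e x b)) (G1 b)
        (F.dsc (L.flip x) 0) := by
      rw [F.dsc_zero]; exact hin b hb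
    have h2 := h1.comp (0 : E2) (hds (L.flip x))
    have h3 : (G1 b) ∘L (F.c⁻¹ • ContinuousLinearMap.id ℝ E2) = F.c⁻¹ • G1 b := by
      ext1 w
      change G1 b (F.c⁻¹ • w) = F.c⁻¹ • G1 b w
      rw [map_smul]
    rw [h3] at h2
    refine h2.congr_of_eventuallyEq ?_
    filter_upwards [isOpen_ball.mem_nhds hrad] with z hz
    change D (F.pt (L.flip x) z) (L.e x b) = D (L.e (L.flip x) (F.dsc (L.flip x) z)) (L.e x b)
    rw [F.e_dsc (F.ball_dT _ hz)]
  have hc0 : ContinuousAt (F.dsc x) 0 := (hds x).continuousAt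
  have hev : ∀ᶠ u in 𝓝 (0 : E2), ((L.flip x, x), ((0 : E2), F.dsc x u)) ∈ od L := by
    have h1 : IsOpen {b : E2 | ((L.flip x, x), ((0 : E2), b)) ∈ od L} :=
      hodo.preimage (by fun_prop : Continuous fun b : E2 => ((0 : E2), b))
    refine hc0.eventually (h1.mem_nhds ?_)
    rw [F.dsc_zero]
    exact hod
  have hev2 : (fun u => fderiv ℝ (fun z => bta F D x (z, u)) 0) =ᶠ[𝓝 0]
      fun u => F.c⁻¹ • G1 (F.dsc x u) - F.c⁻¹ • G1 0 := by
    filter_upwards [hev, isOpen_ball.mem_nhds hrad] with u hu hu2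
    have e1 := hin2 _ hu
    have e2 := hin2 _ hod
    rw [F.e_dsc (F.ball_dT x hu2)] at e1
    rw [L.e_zero] at e2
    have e3 := ((e1.sub_const (D (L.em x) (F.pt x u))).sub e2).add_const
      (D (L.em x) (L.ep x))
    exact e3.fderiv
  have hG1d : HasFDerivAt G1 (fderiv ℝ G1 0) 0 := by
    have h1 : ContDiffAt ℝ ∞ (ff L D (L.flip x, x)) ((0 : E2), (0 : E2)) :=
      hS.f_jc.contDiffAt hod
    have h2 : ContDiffAt ℝ ∞ (fderiv ℝ (ff L D (L.flip x, x))) ((0 : E2), (0 : E2)) :=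
      h1.fderiv_right (by simp)
    have h3 : DifferentiableAt ℝ (fun b : E2 =>
        (fderiv ℝ (ff L D (L.flip x, x)) ((0 : E2), b)).comp (ContinuousLinearMap.inl ℝ E2 E2))
        0 := by
      have e1 : DifferentiableAt ℝ (fun b : E2 =>
          fderiv ℝ (ff L D (L.flip x, x)) ((0 : E2), b)) 0 :=
        (h2.differentiableAt (by simp)).comp (0 : E2)
          (hasFDerivAt_prodMk_right (𝕜 := ℝ) (0 : E2) (0 : E2)).differentiableAt
      exact e1.clm_comp (differentiableAt_const _)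
    have h4 : G1 =ᶠ[𝓝 0] fun b : E2 =>
        (fderiv ℝ (ff L D (L.flip x, x)) ((0 : E2), b)).comp (ContinuousLinearMap.inl ℝ E2 E2) := by
      have e1 : IsOpen {b : E2 | ((L.flip x, x), ((0 : E2), b)) ∈ od L} :=
        hodo.preimage (by fun_prop : Continuous fun b : E2 => ((0 : E2), b))
      filter_upwards [e1.mem_nhds hod] with b hb
      have e2 : HasFDerivAt (ff L D (L.flip x, x)) _ ((0 : E2), b) := hS.f_jc.hasFDerivAt hb
      exact (e2.comp (0 : E2) (hasFDerivAt_prodMk_left (𝕜 := ℝ) (0 : E2) b)).fderiv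
    exact (h3.congr_of_eventuallyEq h4).hasFDerivAt
  have hfin : HasFDerivAt (fun u => F.c⁻¹ • G1 (F.dsc x u) - F.c⁻¹ • G1 0)
      (F.c⁻¹ • ((fderiv ℝ G1 0) ∘L (F.c⁻¹ • ContinuousLinearMap.id ℝ E2))) 0 := by
    have e1 : HasFDerivAt G1 (fderiv ℝ G1 0) (F.dsc x 0) := by rw [F.dsc_zero]; exact hG1d
    exact ((e1.comp (0 : E2) (hds x)).const_smul F.c⁻¹).sub_const _
  rw [mix, hev2.fderiv_eq, hfin.fderiv]
  rfl

theorem mix_inj (hS : SmB L D) (x : X) : Function.Injective (mix F D x) := by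
  have hod : (((L.flip x, x), ((0 : E2), (0 : E2))) : (X × X) × (E2 × E2)) ∈ od L := by
    refine ⟨mem_ball0, mem_ball0, ?_⟩
    change L.e (L.flip x) 0 ≠ L.e x 0
    rw [L.e_zero, L.e_zero, ep_flip]
    exact L.em_ne_ep x
  have h1 := hS.nd _ _ _ _ hod
  have hc : F.c⁻¹ ≠ 0 := inv_ne_zero F.c_pos.ne'
  intro v w hvw
  rw [mix_apply F hS, mix_apply F hS] at hvw
  have h2 := smul_right_injective _ hc hvw
  exact smul_right_injective _ hc (h1 h2)

theorem mix_bij (hS : SmB L D) (x : X) : Function.Bijective (mix F D x) :=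
  ⟨mix_inj F hS x, (LinearMap.injective_iff_surjective_of_finrank_eq_finrank
    (f := (mix F D x).toLinearMap) H266.finrank_dual.symm).1 (mix_inj F hS x)⟩

/-- the mixed derivative as an equivalence -/
def mixe (hS : SmB L D) (x : X) : E2 ≃L[ℝ] (E2 →L[ℝ] ℝ) :=
  (LinearEquiv.ofBijective (mix F D x).toLinearMap (mix_bij F hS x)).toContinuousLinearEquiv

theorem mixe_coe (hS : SmB L D) (x : X) :
    (mixe F hS x : E2 →L[ℝ] E2 →L[ℝ] ℝ) = mix F D x := by
  ext1 v
  rfl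

theorem mixe_symm (hS : SmB L D) (x : X) :
    ((mixe F hS x).symm : (E2 →L[ℝ] ℝ) →L[ℝ] E2) = (mix F D x).inverse := by
  rw [← mixe_coe F hS x, ContinuousLinearMap.inverse_equiv]

theorem mix_inv_cont (hS : SmB L D) : Continuous fun x => (mix F D x).inverse := by
  rw [continuous_iff_continuousAt]
  intro x
  have h1 : ContDiffAt ℝ ∞ ContinuousLinearMap.inverse (mix F D x) := by
    rw [← mixe_coe F hS x]
    exact contDiffAt_map_inverse _
  exact h1.continuousAt.comp (mix_cont F hS).continuousAt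

theorem mix_inv_bound (hS : SmB L D) (hD : ∀ x, D (L.em x) (L.ep x) = L.lv x + L.lp x) :
    ∃ C, ∀ x, ‖((mixe F hS x).symm : (E2 →L[ℝ] ℝ) →L[ℝ] E2)‖ ≤ C := by
  obtain ⟨C, -, hC⟩ := bnd_cont L (f := fun x (_ : ℝ) => (mix F D x).inverse)
    ((mix_inv_cont F hS).comp continuous_fst)
    (fun g x _ => by rw [mix_smul F hD]) 0
  refine ⟨C, fun x => ?_⟩
  rw [mixe_symm]
  exact hC x 0 (by simp)

end Vale.Agent.P207.N4.V.H391
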