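import Vale.Agent.P207.N5.H391.BtD
import Vale.Agent.P207.H267.Beta

/-!
# P207, line N5, step 8: the data of the linearisation, over the smooth boundary
-/

open Set Filter Topology Metric
open scoped ContDiff

noncomputable section

namespace Vale.Agent.P207.N4.V.H391

open Vale.Agent.P207.N4.H391

open Vale.Agent.P207.N3
open Vale.Agent.P207.H267 (BaseD)

variable [Dim]

variable {Γ X B : Type} [Group Γ] [MetricSpace X] [ProperSpace X] [MulAction Γ X]
  [IsIsometricSMul Γ X] [TopologicalSpace B] [CompactSpace B] [T2Space B] [MulAction Γ B]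
  [ContinuousConstSMul Γ B] {L : Leaf Γ X B}

theorem norm_le_of_rate {A : E2 ≃L[ℝ] E2} {c d : ℝ} (hd : 0 ≤ d)
    (h : ∀ q, c * ‖q‖ ≤ ‖A q‖ ∧ ‖A q‖ ≤ d * ‖q‖) : ‖(A : E2 →L[ℝ] E2)‖ ≤ d :=
  ContinuousLinearMap.opNorm_le_bound _ hd fun q => (h q).2

theorem norm_symm_le_of_rate {A : E2 ≃L[ℝ] E2} {c d : ℝ} (hc : 0 < c)
    (h : ∀ q, c * ‖q‖ ≤ ‖A q‖ ∧ ‖A q‖ ≤ d * ‖q‖) : ‖(A.symm : E2 →L[ℝ] E2)‖ ≤ c⁻¹ := by
  refine ContinuousLinearMap.opNorm_le_bound _ (inv_nonneg.2 hc.le) fun q => ?_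
  have h1 := (h (A.symm q)).1
  rw [ContinuousLinearEquiv.apply_symm_apply] at h1
  rw [inv_mul_eq_div, le_div_iff₀ hc, mul_comm]
  exact h1

/-- **The data of the linearisation.** -/
theorem exists_baseD (F : Aff L) {D : B → B → ℝ} (hS : SmB L D)
    (hD : ∀ x, D (L.em x) (L.ep x) = L.lv x + L.lp x) {a b : ℝ} (ha : 0 < a) (hab : a ≤ b)
    (hp : 2 * b < 3 * a) (hR : ∀ t, 0 ≤ t → ∀ x q,
      Real.exp (a * t) * ‖q‖ ≤ ‖F.P t x q‖ ∧ ‖F.P t x q‖ ≤ Real.exp (b * t) * ‖q‖) :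
    ∃ S : BaseD X E2 E2, S.ψ = ψ L ∧ S.L = L1 F ∧ S.L' = L1' F ∧ S.β = bta F D ∧
      S.mv = mv F ∧ S.κ = kap F hS ∧ S.κ' = kap' F ∧ S.g = hlo F := by
  obtain ⟨r, hr0, hr2, hr⟩ := exists_rad F
  choose M hM using bta_bound F hS hD (hd2 F) hr2 hr
  obtain ⟨M0, hM0⟩ := mix_inv_bound F hS hD
  obtain ⟨ρ, hρ0, hρr, hρ⟩ := exists_rho F hr0
  obtain ⟨C1, hC10, hC1⟩ := kap_bound F hS ρ
  obtain ⟨C2, hC20, hC2⟩ := kap_symm_bound F hS ρ
  obtain ⟨C3, hC30, hC3⟩ := kap'_bound F ρ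
  have hR1 : ∀ x q, Real.exp a * ‖q‖ ≤ ‖F.P 1 x q‖ ∧ ‖F.P 1 x q‖ ≤ Real.exp b * ‖q‖ := by
    intro x q
    have h := hR 1 zero_le_one x q
    rwa [mul_one, mul_one] at h
  have hsub : ∀ (x : X) (p : E2 × E2), p ∈ ball (0 : E2 × E2) r → (x, p) ∈ SB F := by
    intro x p hp
    rw [mem_ball_zero_iff, Prod.norm_def, max_lt_iff] at hp
    refine ⟨by rw [mem_ball_zero_iff]; linarith [hp.1], by rw [mem_ball_zero_iff]; linarith [hp.2],
      hr x p.1 p.2 ?_ ?_⟩
    · rw [mem_closedBall_zero_iff]; exact hp.1.le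
    · rw [mem_closedBall_zero_iff]; exact hp.2.le
  have hcb : ∀ {z : E2}, ‖z‖ < ρ → z ∈ closedBall (0 : E2) ρ := fun h => by
    rw [mem_closedBall_zero_iff]; exact h.le
  refine ⟨{
    ψ := ψ L
    L := L1 F
    L' := L1' F
    lam := Real.exp (-a)
    Lam := Real.exp b
    lam_pos := Real.exp_pos _
    one_lt_Lam := by rw [Real.one_lt_exp_iff]; linarith
    norm_L := fun v => norm_le_of_rate (Real.exp_pos _).le (hR1 _)
    norm_L_symm := fun v => by
      rw [Real.exp_neg]; exact norm_symm_le_of_rate (Real.exp_pos _) (hR1 _)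
    norm_L' := fun v => by
      rw [Real.exp_neg]; exact norm_symm_le_of_rate (Real.exp_pos _) (hR1 _)
    norm_L'_symm := fun v => by
      rw [L1', ContinuousLinearEquiv.symm_symm]
      exact norm_le_of_rate (Real.exp_pos _).le (hR1 _)
    lam_lt_one := by rw [Real.exp_lt_one_iff]; linarith
    weight := by
      rw [← Real.exp_nat_mul, ← Real.exp_nat_mul, ← Real.exp_add, Real.exp_lt_one_iff]
      push_cast
      linarith
    r := r
    r_pos := hr0
    ψ_surj := ψ_surj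
    β := bta F D
    M := M
    smooth := fun v p hp => ((bta_jc' F hS).contDiffAt (hsub v p hp)).contDiffWithinAt
    bound := fun v k p hp => hM k v p (ball_subset_closedBall hp)
    zero_left := fun v u _ => bta_zero_left F D v u
    zero_right := fun v z _ => bta_zero_right F D v z
    equi := fun v z u _ _ _ => equi1 F v z u
    K := mixe F hS
    K_eq := fun v => (mixe_coe F hS v).symm
    M0 := M0
    K_symm_le := hM0
    ρ := ρ
    ρ_pos := hρ0
    ρ_le := hρr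
    k0 := max C1 (max C2 C3)
    mv := mv F
    κ := kap F hS
    κ' := kap' F
    κ_le := fun v z hz => (hC1 v z (hcb hz)).trans (le_max_left _ _)
    κ_symm_le := fun v z hz =>
      (hC2 v z (hcb hz)).trans ((le_max_left _ _).trans (le_max_right _ _))
    κ'_le := fun v z hz =>
      (hC3 v z (hcb hz)).trans ((le_max_right _ _).trans (le_max_right _ _))
    g := hlo F
    g_zero := fun v z _ => hlo_zero F v z
    g_deriv := fun v z _ => g_deriv F hS v z
    g_lt := hρ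
    base := fun v z₁ hz₁ => Eventually.of_forall fun z u hu =>
      bta_base F D (hr v z₁ u (closedBall_subset_closedBall hρr (hcb hz₁))
        (closedBall_subset_closedBall hρr (hcb hu))) z
    flow_mv := fun v z _ => mv_ψ F v z
    flow_κ := fun v z _ u => flow_kap F hS v z u
    flow_κ' := fun v z _ α => flow_kap' F v z α
    flow_g := fun v u => flow_hlo F hS v u }, rfl, rfl, rfl, rfl, rfl, rfl, rfl, rfl⟩

end Vale.Agent.P207.N4.V.H391
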