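import Vale.Agent.P207.N5.H391.Par
import Vale.Agent.P207.N4.H391.Q.ParAt
import Vale.Agent.P207.H387.X0

/-!
# P207, b < 2a, step 8: an invariant tensor which is Lipschitz along stable leaves is parallel along
the stable leaves
-/

set_option maxSynthPendingDepth 3

open Set Filter Topology Metric
open scoped ContDiff

noncomputable section

namespace Vale.Agent.P207.N4.V.H391

open Vale.Agent.P207.N4.H391

open Vale.Agent.P207.N3
open Vale.Agent.P207.N4.H391.Q (V4 MM act act_comp par_at act_contDiff)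
open Vale.Agent.P207.N4.H387 (DenseF dense_denseF)

variable [Dim]

variable {Γ X B : Type} [Group Γ] [MetricSpace X] [ProperSpace X] [MulAction Γ X]
  [IsIsometricSMul Γ X] [TopologicalSpace B] [CompactSpace B] [T2Space B] [MulAction Γ B]
  [ContinuousConstSMul Γ B] {L : Leaf Γ X B}

variable (F : Aff L) {D : B → B → ℝ}

/-- `θ` is equivariant: two frames on one geodesic -/
def Equi (F : Aff L) (θ : X → V4 E2) : Prop := ∀ x y, L.em x = L.em y → L.ep x = L.ep y →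
  act ((F.lin x y : E2 →L[ℝ] E2), (F.lin (L.flip x) (L.flip y) : E2 →L[ℝ] E2)) (θ y) = θ x

/-- the transport of the tensor along the stable leaf -/
def trn (F : Aff L) (hS : SmB L D) (θ : X → V4 E2) (x : X) (z : E2) : V4 E2 :=
  act ((kap F hS x z : E2 →L[ℝ] E2), (kap' F x z : E2 →L[ℝ] E2)) (θ (mv F x z))

/-- the transport on two frames of one geodesic -/
theorem trn_same (hS : SmB L D) {θ : X → V4 E2} (hfl : Equi F θ) {x y : X}
    (h1 : L.em x = L.em y) (h2 : L.ep x = L.ep y) (z : E2) :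
    act ((F.lin x y : E2 →L[ℝ] E2), (F.lin (L.flip x) (L.flip y) : E2 →L[ℝ] E2))
      (trn F hS θ y (F.lin (L.flip x) (L.flip y) z)) = trn F hS θ x z := by
  set A' := F.lin (L.flip x) (L.flip y) with hA'
  have hf1 : L.em (L.flip x) = L.em (L.flip y) := by rw [em_flip, em_flip, h2]
  have hf2 : L.ep (L.flip x) = L.ep (L.flip y) := by rw [ep_flip, ep_flip, h1]
  have g1 : L.em (mv F x z) = L.em (mv F y (A' z)) := by
    rw [em_mv, em_mv, hA', pt_same F hf1 hf2]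
  have g2 : L.ep (mv F x z) = L.ep (mv F y (A' z)) := by rw [ep_mv, ep_mv, h2]
  have e1 := DFunLike.congr_fun (act_comp
    ((F.lin x y : E2 →L[ℝ] E2), (A' : E2 →L[ℝ] E2))
    ((kap F hS y (A' z) : E2 →L[ℝ] E2), (kap' F y (A' z) : E2 →L[ℝ] E2)))
    (θ (mv F y (A' z)))
  have e2 := DFunLike.congr_fun (act_comp
    ((kap F hS x z : E2 →L[ℝ] E2), (kap' F x z : E2 →L[ℝ] E2))
    ((F.lin (mv F x z) (mv F y (A' z)) : E2 →L[ℝ] E2),
      (F.lin (L.flip (mv F x z)) (L.flip (mv F y (A' z))) : E2 →L[ℝ] E2)))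
    (θ (mv F y (A' z)))
  rw [ContinuousLinearMap.comp_apply] at e1 e2
  rw [hfl (mv F x z) (mv F y (A' z)) g1 g2] at e2
  rw [trn, trn, e1, e2]
  congr 2
  refine Prod.ext ?_ ?_
  · ext1 w
    change kap F hS y (A' z) (F.lin x y w) =
      F.lin (mv F x z) (mv F y (A' z)) (kap F hS x z w)
    rw [← kp_same F hS g1 g2, ← kp_same F hS h1 h2]
    change kpe hS _ (kpe hS _ w) = kpe hS _ (kpe hS _ w)
    rw [← kp_trans F hS, ← kp_trans F hS]
  · ext1 w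
    change F.lin (L.flip y) (L.flip (mv F y (A' z))) (A' w) =
      F.lin (L.flip (mv F x z)) (L.flip (mv F y (A' z))) (F.lin (L.flip x) (L.flip (mv F x z)) w)
    have q1 : L.em (L.flip x) = L.em (L.flip (mv F x z)) := by rw [em_flip, em_flip, ep_mv]
    have q2 : L.em (L.flip y) = L.em (L.flip (mv F y (A' z))) := by
      rw [em_flip, em_flip, ep_mv]
    rw [hA', ← lin_trans F hf1 q2, ← lin_trans F q1 (by rw [em_flip, em_flip, g2])]

/-! ### the frames `rot a (φ t x)` -/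

theorem lin_φ (t : ℝ) (a : O2) (x : X) (q : E2) :
    F.lin x (L.rot a (L.φ t x)) q = a.symm (F.P t x q) := by
  have h1 : L.em x = L.em (L.rot a (L.φ t x)) := by rw [L.em_rot, L.em_φ]
  have h2 : L.ep x = L.ep (L.rot a (L.φ t x)) := by rw [Ten.ep_rot, Ten.ep_φ]
  have h3 := ch_same F h1 h2 (F.pt_ne x q)
  rw [F.ch_pt] at h3
  rw [← h3, F.ch_rot a _ _ (by rw [L.em_φ]; exact F.pt_ne x q),
    ch_φ F t x (F.pt_ne x q), F.ch_pt]

theorem lin_flip_φ (t : ℝ) (a : O2) (x : X) (q : E2) :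
    F.lin (L.flip x) (L.flip (L.rot a (L.φ t x))) q = a.symm (F.P (-t) (L.flip x) q) := by
  rw [L.flip_rot, L.flip_φ]
  exact lin_φ F (-t) a (L.flip x) q

theorem P_neg_symm (t : ℝ) (y : X) (q : E2) :
    F.P (-t) y q = (F.P t (L.φ (-t) y)).symm q := by
  have e1 := P_neg F t (L.φ (-t) y) q
  rw [← L.φ_add, add_neg_cancel, L.φ_zero] at e1
  exact e1

theorem norm_P_le {c d : ℝ} {A : E2 ≃L[ℝ] E2} (hd : 0 ≤ d)
    (h : ∀ q, c * ‖q‖ ≤ ‖A q‖ ∧ ‖A q‖ ≤ d * ‖q‖) : ‖(A : E2 →L[ℝ] E2)‖ ≤ d :=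
  ContinuousLinearMap.opNorm_le_bound _ hd fun q => (h q).2

theorem norm_P_symm_le {c d : ℝ} {A : E2 ≃L[ℝ] E2} (hc : 0 < c)
    (h : ∀ q, c * ‖q‖ ≤ ‖A q‖ ∧ ‖A q‖ ≤ d * ‖q‖) : ‖(A.symm : E2 →L[ℝ] E2)‖ ≤ c⁻¹ := by
  refine ContinuousLinearMap.opNorm_le_bound _ (inv_nonneg.2 hc.le) fun q => ?_
  have h1 := (h (A.symm q)).1
  rw [ContinuousLinearEquiv.apply_symm_apply] at h1
  rw [inv_mul_eq_div, le_div_iff₀ hc, mul_comm]
  exact h1

variable {a b : ℝ}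

theorem rate_lin (hR : ∀ t, 0 ≤ t → ∀ x q,
      Real.exp (a * t) * ‖q‖ ≤ ‖F.P t x q‖ ∧ ‖F.P t x q‖ ≤ Real.exp (b * t) * ‖q‖)
    {t : ℝ} (ht : 0 ≤ t) (o : O2) (x : X) (q : E2) :
    Real.exp (a * t) * ‖q‖ ≤ ‖F.lin x (L.rot o (L.φ t x)) q‖ ∧
      ‖F.lin x (L.rot o (L.φ t x)) q‖ ≤ Real.exp (b * t) * ‖q‖ := by
  rw [lin_φ, LinearIsometryEquiv.norm_map]
  exact hR t ht x q

theorem rate_lin' (hR : ∀ t, 0 ≤ t → ∀ x q,
      Real.exp (a * t) * ‖q‖ ≤ ‖F.P t x q‖ ∧ ‖F.P t x q‖ ≤ Real.exp (b * t) * ‖q‖)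
    {t : ℝ} (ht : 0 ≤ t) (o : O2) (x : X) (q : E2) :
    Real.exp (-(b * t)) * ‖q‖ ≤ ‖F.lin (L.flip x) (L.flip (L.rot o (L.φ t x))) q‖ ∧
      ‖F.lin (L.flip x) (L.flip (L.rot o (L.φ t x))) q‖ ≤ Real.exp (-a * t) * ‖q‖ := by
  rw [lin_flip_φ, LinearIsometryEquiv.norm_map, P_neg_symm]
  set y := L.φ (-t) (L.flip x)
  have h := hR t ht y ((F.P t y).symm q)
  rw [ContinuousLinearEquiv.apply_symm_apply] at h
  constructor
  · rw [Real.exp_neg, inv_mul_le_iff₀ (Real.exp_pos _)]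
    exact h.2
  · rw [show -a * t = -(a * t) by ring, Real.exp_neg, inv_mul_eq_div, le_div_iff₀ (Real.exp_pos _),
      mul_comm]
    exact h.1

/-- at a frame with dense forward orbit -/
theorem trn_eq_at (hS : SmB L D) {θ : X → V4 E2} (hθ : Continuous θ)
    (hg : ∀ (g : Γ) x, θ (g • x) = θ x) (hfl : Equi F θ)
    (ha : 0 < a) (hab : b < 2 * a) (hR : ∀ t, 0 ≤ t → ∀ x q,
      Real.exp (a * t) * ‖q‖ ≤ ‖F.P t x q‖ ∧ ‖F.P t x q‖ ≤ Real.exp (b * t) * ‖q‖)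
    {ρ C : ℝ} (hC : 0 ≤ C) (hlip : ∀ x z, ‖z‖ < ρ → ‖trn F hS θ x z - θ x‖ ≤ C * ‖z‖)
    {x0 : X} (hx0 : DenseF L x0) {z : E2} (hz : ‖z‖ < ρ) : trn F hS θ x0 z = θ x0 := by
  have hem : ∀ i : ℝ × O2, L.em x0 = L.em (L.rot i.2 (L.φ i.1 x0)) := fun i => by
    rw [L.em_rot, L.em_φ]
  have hep : ∀ i : ℝ × O2, L.ep x0 = L.ep (L.rot i.2 (L.φ i.1 x0)) := fun i => by
    rw [Ten.ep_rot, Ten.ep_φ]
  refine par_at θ x0 (fun i : ℝ × O2 => i.1) (fun i => L.rot i.2 (L.φ i.1 x0))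
    (fun i => F.lin x0 (L.rot i.2 (L.φ i.1 x0)))
    (fun i => F.lin (L.flip x0) (L.flip (L.rot i.2 (L.φ i.1 x0))))
    (fun i _ => hfl _ _ (hem i) (hep i)) ?_ (C := C * ‖z‖) ha hab
    (fun i ht => norm_P_le (Real.exp_pos _).le (rate_lin F hR ht i.2 x0)) (fun i ht => ?_)
    (fun i ht => norm_P_le (Real.exp_pos _).le (rate_lin' F hR ht i.2 x0)) (fun i ht => ?_)
    (fun i => ((kap F hS (L.rot i.2 (L.φ i.1 x0))
      (F.lin (L.flip x0) (L.flip (L.rot i.2 (L.φ i.1 x0))) z) : E2 →L[ℝ] E2),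
      (kap' F (L.rot i.2 (L.φ i.1 x0))
        (F.lin (L.flip x0) (L.flip (L.rot i.2 (L.φ i.1 x0))) z) : E2 →L[ℝ] E2)))
    (fun i => mv F (L.rot i.2 (L.φ i.1 x0))
      (F.lin (L.flip x0) (L.flip (L.rot i.2 (L.φ i.1 x0))) z)) (trn F hS θ x0 z)
    (fun i _ => trn_same F hS hfl (hem i) (hep i) z) (by positivity) (fun i ht => ?_)
  · intro y ε hε T
    obtain ⟨t, ht, o, g, hgt⟩ := hx0.fwd {w | ‖θ w - θ y‖ < ε}
      (isOpen_lt (by fun_prop) continuous_const) ⟨y, by simpa using hε⟩ T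
    refine ⟨(t, o), ht, ?_⟩
    change ‖θ (g • L.rot o (L.φ t x0)) - θ y‖ < ε at hgt
    rwa [hg] at hgt
  · rw [show -a * i.1 = -(a * i.1) by ring, Real.exp_neg]
    exact norm_P_symm_le (Real.exp_pos _) (rate_lin F hR ht i.2 x0)
  · have h := norm_P_symm_le (Real.exp_pos _) (rate_lin' F hR ht i.2 x0)
    rwa [Real.exp_neg, inv_inv] at h
  · have h1 := (rate_lin' F hR ht i.2 x0 z).2
    have h2 : ‖F.lin (L.flip x0) (L.flip (L.rot i.2 (L.φ i.1 x0))) z‖ < ρ := by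
      refine h1.trans_lt (lt_of_le_of_lt ?_ hz)
      have h2 : Real.exp (-a * i.1) ≤ 1 := Real.exp_le_one_iff.2 (by nlinarith)
      nlinarith [norm_nonneg z]
    refine (hlip _ _ h2).trans ?_
    calc C * ‖F.lin (L.flip x0) (L.flip (L.rot i.2 (L.φ i.1 x0))) z‖ ≤
          C * (Real.exp (-a * i.1) * ‖z‖) := mul_le_mul_of_nonneg_left h1 hC
      _ = C * ‖z‖ * Real.exp (-a * i.1) := by ring

/-- **the tensor is parallel along the stable leaves** -/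
theorem trn_eq (hS : SmB L D) {θ : X → V4 E2} (hθ : Continuous θ)
    (hg : ∀ (g : Γ) x, θ (g • x) = θ x) (hfl : Equi F θ)
    (ha : 0 < a) (hab : b < 2 * a) (hR : ∀ t, 0 ≤ t → ∀ x q,
      Real.exp (a * t) * ‖q‖ ≤ ‖F.P t x q‖ ∧ ‖F.P t x q‖ ≤ Real.exp (b * t) * ‖q‖)
    {ρ C : ℝ} (hC : 0 ≤ C) (hlip : ∀ x z, ‖z‖ < ρ → ‖trn F hS θ x z - θ x‖ ≤ C * ‖z‖)
    (x : X) {z : E2} (hz : ‖z‖ < ρ) : trn F hS θ x z = θ x := by
  have hc : Continuous fun x => trn F hS θ x z := by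
    have h1 : Continuous fun x => ((kap F hS x z : E2 →L[ℝ] E2), (kap' F x z : E2 →L[ℝ] E2)) := by
      refine Continuous.prodMk ?_ ?_
      · exact (kap_cont F hS).comp (continuous_id.prodMk continuous_const)
      · rw [continuous_clm_apply]
        intro α
        exact (kap'_cont F).comp (f := fun x : X => (x, (z, α)))
          (continuous_id.prodMk continuous_const)
    have h2 : Continuous fun x => θ (mv F x z) :=
      hθ.comp ((mv_cont F).comp (continuous_id.prodMk continuous_const))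
    exact (act_contDiff.continuous.comp h1).clm_apply h2
  have hcl : IsClosed {x : X | trn F hS θ x z = θ x} := isClosed_eq hc hθ
  have h3 : {x : X | DenseF L x} ⊆ {x : X | trn F hS θ x z = θ x} := fun x0 hx0 =>
    trn_eq_at F hS hθ hg hfl ha hab hR hC hlip hx0 hz
  have h4 := hcl.closure_subset_iff.2 h3
  rw [(dense_denseF L).closure_eq] at h4
  exact h4 (mem_univ x)

end Vale.Agent.P207.N4.V.H391
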