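import Vale.Agent.P207.N5.H391.St8T
import Vale.Agent.P207.H391.QV.C22

/-!
# P207, step 8 with the rates measured by a clock

The rates `e^{a σ} |q| ≤ |P_t q| ≤ e^{b σ} |q|`, `b < 2 a`, `σ = σ t x` a flip invariant clock with
`c₀ t ≤ σ ≤ c₁ t`, are assumed for `t ≥ s`.
-/

set_option maxSynthPendingDepth 3

open Set Filter Topology Metric
open scoped ContDiff

noncomputable section

namespace Vale.Agent.P207.N4.V.H391.T.C

open Vale.Agent.P207.N4.H391

open Vale.Agent.P207.N3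
open Vale.Agent.P207.N4.H391.Q (V4 MM act act_apply act_comp par_at fam act_contDiff)
open Vale.Agent.P207.N4.H387 (DenseF dense_denseF)
open Vale.Agent.P207.N4.H883 (AffS St8)

variable [Dim]

variable {Γ X B : Type} [Group Γ] [MetricSpace X] [ProperSpace X] [MulAction Γ X]
  [IsIsometricSMul Γ X] [TopologicalSpace B] [CompactSpace B] [T2Space B] [MulAction Γ B]
  [ContinuousConstSMul Γ B] {L : Leaf Γ X B}

/-- a flip invariant clock -/
structure Clk (L : Leaf Γ X B) (sg : ℝ → X → ℝ) (c₀ c₁ : ℝ) : Prop where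
  pos : 0 < c₀
  lo : ∀ t x, 0 ≤ t → c₀ * t ≤ sg t x
  hi : ∀ t x, 0 ≤ t → sg t x ≤ c₁ * t
  flip : ∀ t x, 0 ≤ t → sg t (L.flip (L.φ t x)) = sg t x

/-- the rates in the clock, for `t ≥ s` -/
def RateC (F : Aff L) (sg : ℝ → X → ℝ) (s a b : ℝ) : Prop := ∀ t, s ≤ t → ∀ x q,
  Real.exp (a * sg t x) * ‖q‖ ≤ ‖F.P t x q‖ ∧ ‖F.P t x q‖ ≤ Real.exp (b * sg t x) * ‖q‖

variable (F : Aff L) {D : B → B → ℝ} {sg : ℝ → X → ℝ} {c₀ c₁ : ℝ}

/-! ### the data of the linearisation -/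

/-- **The data of the linearisation.** -/
theorem exists_flipD {s : ℝ} (hS : SmB L D)
    (hD : ∀ x, D (L.em x) (L.ep x) = L.lv x + L.lp x) {a b : ℝ} (ha : 0 < a) (hab : a ≤ b)
    (hp : b < 2 * a) (hs : 0 < s) (hk : Clk L sg c₀ c₁) (hR : RateC F sg s a b) :
    ∃ S : H267.QV.FlipD X E2, S.ψ = ψ L s ∧ S.L = L1 F s ∧ S.L' = L1' F s ∧ S.β = bta F D ∧
      S.mv = mv F ∧ S.κ = kap F hS ∧ S.κ' = kap' F ∧ S.g = hlo F ∧ S.r < 2 ∧
      ∀ (x : X) (z u : E2), z ∈ closedBall (0 : E2) S.r → u ∈ closedBall (0 : E2) S.r →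
        F.pt (L.flip x) z ≠ F.pt x u := by
  obtain ⟨r, hr0, hr2, hr⟩ := exists_rad F
  choose M hM using bta_bound F hS hD (hd2 F) hr2 hr
  obtain ⟨M0, hM0⟩ := mix_inv_bound F hS hD
  obtain ⟨ρ, hρ0, hρr, hρ⟩ := exists_rho F hr0
  obtain ⟨C1, hC10, hC1⟩ := kap_bound F hS ρ
  obtain ⟨C2, hC20, hC2⟩ := kap_symm_bound F hS ρ
  obtain ⟨C3, hC30, hC3⟩ := kap'_bound F ρ
  have hb : 0 < b := ha.trans_le hab
  have hR1 := hR s le_rfl
  have hcs : 0 < c₀ * s := mul_pos hk.pos hs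
  have hsl : ∀ x, c₀ * s ≤ sg s x := fun x => hk.lo s x hs.le
  have hsh : ∀ x, sg s x ≤ c₁ * s := fun x => hk.hi s x hs.le
  have hsf : ∀ v, sg s (L.flip v) = sg s (ψ L s v) := fun v => by
    have h := hk.flip s (ψ L s v) hs.le
    rwa [φ_ψ] at h
  have hc1 : c₀ * s ≤ c₁ * s := by
    obtain ⟨x⟩ := L.nonempty
    exact (hsl x).trans (hsh x)
  -- the four norms in the clock
  have n1 : ∀ v, ‖(L1 F s v : E2 →L[ℝ] E2)‖ ≤ Real.exp (b * sg s (ψ L s v)) := fun v =>
    norm_le_of_rate (Real.exp_pos _).le (hR1 (ψ L s v))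
  have n2 : ∀ v, ‖((L1 F s v).symm : E2 →L[ℝ] E2)‖ ≤ Real.exp (-(a * sg s (ψ L s v))) :=
    fun v => by rw [Real.exp_neg]; exact norm_symm_le_of_rate (Real.exp_pos _) (hR1 _)
  have n3 : ∀ v, ‖(L1' F s v : E2 →L[ℝ] E2)‖ ≤ Real.exp (-(a * sg s (ψ L s v))) :=
    fun v => by
      rw [← hsf, Real.exp_neg]; exact norm_symm_le_of_rate (Real.exp_pos _) (hR1 _)
  have n4 : ∀ v, ‖((L1' F s v).symm : E2 →L[ℝ] E2)‖ ≤ Real.exp (b * sg s (ψ L s v)) :=
    fun v => by
      rw [← hsf, L1', ContinuousLinearEquiv.symm_symm]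
      exact norm_le_of_rate (Real.exp_pos _).le (hR1 _)
  have e1 : ∀ v, Real.exp (b * sg s (ψ L s v)) ≤ Real.exp (b * (c₁ * s)) := fun v =>
    Real.exp_le_exp.2 (mul_le_mul_of_nonneg_left (hsh _) hb.le)
  have e2 : ∀ v, Real.exp (-(a * sg s (ψ L s v))) ≤ Real.exp (-(a * (c₀ * s))) := fun v =>
    Real.exp_le_exp.2 (neg_le_neg (mul_le_mul_of_nonneg_left (hsl _) ha.le))
  have e3 : ∀ v, Real.exp (b * sg s (ψ L s v)) * Real.exp (-(a * sg s (ψ L s v))) ^ 2 ≤
      Real.exp (-((2 * a - b) * (c₀ * s))) := fun v => by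
    rw [← Real.exp_nat_mul, ← Real.exp_add]
    refine Real.exp_le_exp.2 ?_
    push_cast
    have h1 : (2 * a - b) * (c₀ * s) ≤ (2 * a - b) * sg s (ψ L s v) :=
      mul_le_mul_of_nonneg_left (hsl _) (by linarith)
    linarith
  have hsub : ∀ (x : X) (p : E2 × E2), p ∈ ball (0 : E2 × E2) r → (x, p) ∈ SB F := by
    intro x p hp
    rw [mem_ball_zero_iff, Prod.norm_def, max_lt_iff] at hp
    refine ⟨by rw [mem_ball_zero_iff]; linarith [hp.1], by rw [mem_ball_zero_iff]; linarith [hp.2],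
      hr x p.1 p.2 ?_ ?_⟩
    · rw [mem_closedBall_zero_iff]; exact hp.1.le
    · rw [mem_closedBall_zero_iff]; exact hp.2.le
  have hcb : ∀ {z : E2}, ‖z‖ < ρ → z ∈ closedBall (0 : E2) ρ := fun h => by
    rw [mem_closedBall_zero_iff]; exact h.le
  refine ⟨{
    ψ := ψ L s
    L := L1 F s
    L' := L1' F s
    lam := Real.exp (-(a * (c₀ * s)))
    Lam := Real.exp (b * (c₁ * s))
    lam_pos := Real.exp_pos _
    one_lt_Lam := by
      rw [Real.one_lt_exp_iff]
      exact mul_pos hb (hcs.trans_le hc1)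
    norm_L := fun v => (n1 v).trans (e1 v)
    norm_L_symm := fun v => (n2 v).trans (e2 v)
    norm_L' := fun v => (n3 v).trans (e2 v)
    norm_L'_symm := fun v => (n4 v).trans (e1 v)
    lam_lt_one := by
      rw [Real.exp_lt_one_iff]
      have := mul_pos ha hcs
      linarith
    θ := Real.exp (-((2 * a - b) * (c₀ * s)))
    θ_nonneg := (Real.exp_pos _).le
    θ_lt_one := by
      rw [Real.exp_lt_one_iff]
      have : 0 < (2 * a - b) * (c₀ * s) := mul_pos (by linarith) hcs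
      linarith
    weight := fun v => (mul_le_mul (n4 v) (pow_le_pow_left₀ (norm_nonneg _) (n2 v) 2)
      (by positivity) (Real.exp_pos _).le).trans (e3 v)
    weight' := fun v => (mul_le_mul (n1 v) (pow_le_pow_left₀ (norm_nonneg _) (n3 v) 2)
      (by positivity) (Real.exp_pos _).le).trans (e3 v)
    r := r
    r_pos := hr0
    ψ_surj := ψ_surj s
    β := bta F D
    M := M
    smooth := fun v p hp => ((bta_jc' F hS).contDiffAt (hsub v p hp)).contDiffWithinAt
    bound := fun v k p hp => hM k v p (ball_subset_closedBall hp)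
    zero_left := fun v u _ => bta_zero_left F D v u
    zero_right := fun v z _ => bta_zero_right F D v z
    equi := fun v z u _ _ _ => equi1 F s v z u
    K := mixe F hS
    K_eq := fun v => (mixe_coe F hS v).symm
    M0 := M0
    K_symm_le := hM0
    ρ := ρ
    ρ_pos := hρ0
    ρ_le := hρr
    k0 := max C1 (max C2 C3)
    mv := mv F
    κ := kap F hS
    κ' := kap' F
    κ_le := fun v z hz => (hC1 v z (hcb hz)).trans (le_max_left _ _)
    κ_symm_le := fun v z hz =>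
      (hC2 v z (hcb hz)).trans ((le_max_left _ _).trans (le_max_right _ _))
    κ'_le := fun v z hz =>
      (hC3 v z (hcb hz)).trans ((le_max_right _ _).trans (le_max_right _ _))
    g := hlo F
    g_zero := fun v z _ => hlo_zero F v z
    g_deriv := fun v z _ => g_deriv F hS v z
    g_lt := hρ
    base := fun v z₁ hz₁ => Eventually.of_forall fun z u hu =>
      bta_base F D (hr v z₁ u (closedBall_subset_closedBall hρr (hcb hz₁))
        (closedBall_subset_closedBall hρr (hcb hu))) z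
    flow_mv := fun v z _ => mv_ψ F s v z
    flow_κ := fun v z _ u => flow_kap F s hS v z u
    flow_κ' := fun v z _ α => flow_kap' F s v z α
    flow_g := fun v u => flow_hlo F s hS v u
    flip := L.flip
    flip_flip := L.flip_flip
    β_flip := fun v z u hz hu => bta_flip F hD (hr v z u
      (by rw [mem_closedBall_zero_iff]; exact hz.le)
      (by rw [mem_closedBall_zero_iff]; exact hu.le)) },
    rfl, rfl, rfl, rfl, rfl, rfl, rfl, rfl, hr2, hr⟩

/-! ### the type lemma -/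

variable {a b s : ℝ}

theorem rate_lin (hR : RateC F sg s a b)
    {t : ℝ} (ht : s ≤ t) (o : O2) (x : X) (q : E2) :
    Real.exp (a * sg t x) * ‖q‖ ≤ ‖F.lin x (L.rot o (L.φ t x)) q‖ ∧
      ‖F.lin x (L.rot o (L.φ t x)) q‖ ≤ Real.exp (b * sg t x) * ‖q‖ := by
  rw [lin_φ, LinearIsometryEquiv.norm_map]
  exact hR t ht x q

theorem rate_lin' (hk : Clk L sg c₀ c₁) (hR : RateC F sg s a b)
    {t : ℝ} (ht0 : 0 ≤ t) (ht : s ≤ t) (o : O2) (x : X) (q : E2) :
    Real.exp (-(b * sg t x)) * ‖q‖ ≤ ‖F.lin (L.flip x) (L.flip (L.rot o (L.φ t x))) q‖ ∧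
      ‖F.lin (L.flip x) (L.flip (L.rot o (L.φ t x))) q‖ ≤ Real.exp (-a * sg t x) * ‖q‖ := by
  rw [lin_flip_φ, LinearIsometryEquiv.norm_map, P_neg_symm]
  set y := L.φ (-t) (L.flip x)
  have h := hR t ht y ((F.P t y).symm q)
  have hsy : sg t y = sg t x := by
    have h1 := hk.flip t x ht0
    rwa [L.flip_φ] at h1
  rw [ContinuousLinearEquiv.apply_symm_apply, hsy] at h
  constructor
  · rw [Real.exp_neg, inv_mul_le_iff₀ (Real.exp_pos _)]
    exact h.2
  · rw [show -a * sg t x = -(a * sg t x) by ring, Real.exp_neg, inv_mul_eq_div, le_div_iff₀ (Real.exp_pos _),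
      mul_comm]
    exact h.1

/-- at a frame with dense forward orbit -/
theorem trn_eq_at (hS : SmB L D) {θ : X → V4 E2} (hθ : Continuous θ)
    (hg : ∀ (g : Γ) x, θ (g • x) = θ x) (hfl : Equi F θ)
    (ha : 0 < a) (hab : b < 2 * a) (hk : Clk L sg c₀ c₁) (hR : RateC F sg s a b)
    {ρ C : ℝ} (hC : 0 ≤ C) (hlip : ∀ x z, ‖z‖ < ρ → ‖trn F hS θ x z - θ x‖ ≤ C * ‖z‖)
    {x0 : X} (hx0 : DenseF L x0) {z : E2} (hz : ‖z‖ < ρ) : trn F hS θ x0 z = θ x0 := by
  let ι := {i : ℝ × O2 // s ≤ i.1 ∧ 0 ≤ i.1}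
  let fr : ι → X := fun i => L.rot i.1.2 (L.φ i.1.1 x0)
  have hem : ∀ i : ι, L.em x0 = L.em (fr i) := fun i => by
    change _ = L.em (L.rot i.1.2 (L.φ i.1.1 x0))
    rw [L.em_rot, L.em_φ]
  have hep : ∀ i : ι, L.ep x0 = L.ep (fr i) := fun i => by
    change _ = L.ep (L.rot i.1.2 (L.φ i.1.1 x0))
    rw [Ten.ep_rot, Ten.ep_φ]
  refine par_at θ x0 (fun i : ι => sg i.1.1 x0) fr (fun i => F.lin x0 (fr i))
    (fun i => F.lin (L.flip x0) (L.flip (fr i)))
    (fun i _ => hfl _ _ (hem i) (hep i)) ?_ (C := C * ‖z‖) ha hab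
    (fun i _ => norm_P_le (Real.exp_pos _).le (rate_lin F hR i.2.1 i.1.2 x0)) (fun i _ => ?_)
    (fun i _ => norm_P_le (Real.exp_pos _).le (rate_lin' F hk hR i.2.2 i.2.1 i.1.2 x0)) (fun i _ => ?_)
    (fun i => ((kap F hS (fr i)
      (F.lin (L.flip x0) (L.flip (fr i)) z) : E2 →L[ℝ] E2),
      (kap' F (fr i)
        (F.lin (L.flip x0) (L.flip (fr i)) z) : E2 →L[ℝ] E2)))
    (fun i => mv F (fr i)
      (F.lin (L.flip x0) (L.flip (fr i)) z)) (trn F hS θ x0 z)
    (fun i _ => trn_same F hS hfl (hem i) (hep i) z) (by positivity) (fun i ht => ?_)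
  · intro y ε hε T
    obtain ⟨t, ht, o, g, hgt⟩ := hx0.fwd {w | ‖θ w - θ y‖ < ε}
      (isOpen_lt (by fun_prop) continuous_const) ⟨y, by simpa using hε⟩ (max (T / c₀) (max s 0))
    have ht0 : 0 ≤ t := (le_max_right s 0).trans ((le_max_right _ _).trans ht)
    have hT : T ≤ sg t x0 := by
      refine le_trans ?_ (hk.lo t x0 ht0)
      rw [mul_comm, ← div_le_iff₀ hk.pos]
      exact (le_max_left _ _).trans ht
    refine ⟨⟨(t, o), (le_max_left s 0).trans ((le_max_right _ _).trans ht), ht0⟩, hT, ?_⟩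
    change ‖θ (g • L.rot o (L.φ t x0)) - θ y‖ < ε at hgt
    rwa [hg] at hgt
  · rw [show -a * sg i.1.1 x0 = -(a * sg i.1.1 x0) by ring, Real.exp_neg]
    exact norm_P_symm_le (Real.exp_pos _) (rate_lin F hR i.2.1 i.1.2 x0)
  · have h := norm_P_symm_le (Real.exp_pos _) (rate_lin' F hk hR i.2.2 i.2.1 i.1.2 x0)
    rwa [Real.exp_neg, inv_inv] at h
  · have h1 : ‖F.lin (L.flip x0) (L.flip (fr i)) z‖ ≤ Real.exp (-a * sg i.1.1 x0) * ‖z‖ :=
      (rate_lin' F hk hR i.2.2 i.2.1 i.1.2 x0 z).2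
    have h2 : ‖F.lin (L.flip x0) (L.flip (fr i)) z‖ < ρ := by
      refine h1.trans_lt (lt_of_le_of_lt ?_ hz)
      have h2 : Real.exp (-a * sg i.1.1 x0) ≤ 1 := Real.exp_le_one_iff.2 (by nlinarith)
      nlinarith [norm_nonneg z]
    refine (hlip _ _ h2).trans ?_
    calc C * ‖F.lin (L.flip x0) (L.flip (fr i)) z‖ ≤
          C * (Real.exp (-a * sg i.1.1 x0) * ‖z‖) := mul_le_mul_of_nonneg_left h1 hC
      _ = C * ‖z‖ * Real.exp (-a * sg i.1.1 x0) := by ring

/-- **the tensor is parallel along the stable leaves** -/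
theorem trn_eq (hS : SmB L D) {θ : X → V4 E2} (hθ : Continuous θ)
    (hg : ∀ (g : Γ) x, θ (g • x) = θ x) (hfl : Equi F θ)
    (ha : 0 < a) (hab : b < 2 * a) (hk : Clk L sg c₀ c₁) (hR : RateC F sg s a b)
    {ρ C : ℝ} (hC : 0 ≤ C) (hlip : ∀ x z, ‖z‖ < ρ → ‖trn F hS θ x z - θ x‖ ≤ C * ‖z‖)
    (x : X) {z : E2} (hz : ‖z‖ < ρ) : trn F hS θ x z = θ x := by
  have hc : Continuous fun x => trn F hS θ x z := by
    have h1 : Continuous fun x => ((kap F hS x z : E2 →L[ℝ] E2), (kap' F x z : E2 →L[ℝ] E2)) := by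
      refine Continuous.prodMk ?_ ?_
      · exact (kap_cont F hS).comp (continuous_id.prodMk continuous_const)
      · rw [continuous_clm_apply]
        intro α
        exact (kap'_cont F).comp (f := fun x : X => (x, (z, α)))
          (continuous_id.prodMk continuous_const)
    have h2 : Continuous fun x => θ (mv F x z) :=
      hθ.comp ((mv_cont F).comp (continuous_id.prodMk continuous_const))
    exact (act_contDiff.continuous.comp h1).clm_apply h2
  have hcl : IsClosed {x : X | trn F hS θ x z = θ x} := isClosed_eq hc hθ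
  have h3 : {x : X | DenseF L x} ⊆ {x : X | trn F hS θ x z = θ x} := fun x0 hx0 =>
    trn_eq_at F hS hθ hg hfl ha hab hk hR hC hlip hx0 hz
  have h4 := hcl.closure_subset_iff.2 h3
  rw [(dense_denseF L).closure_eq] at h4
  exact h4 (mem_univ x)

/-- **the mixed fourth derivative is parallel along the stable leaves** -/
theorem par_of_type (hS : SmB L D) (hD : ∀ x, D (L.em x) (L.ep x) = L.lv x + L.lp x) {a b : ℝ}
    (ha : 0 < a) (hab : b < 2 * a) (hk : Clk L sg c₀ c₁) (hR : RateC F sg s a b)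
    {ρ C : ℝ} (hC : 0 ≤ C)
    (hlip : ∀ x z, ‖z‖ < ρ → ‖trn F hS (theta F D) x z - theta F D x‖ ≤ C * ‖z‖)
    (x : X) {z : E2} (hz : ‖z‖ < ρ) : trn F hS (theta F D) x z = theta F D x :=
  trn_eq F hS (theta_cont F hS) (theta_smul F hD) (theta_same F hS) ha hab hk hR hC hlip x hz

/-! ### the assembly -/

theorem PT_all {P : X → E2 →L[ℝ] E2 →L[ℝ] E2 →L[ℝ] E2} {hS : SmB L D} {a b : ℝ} (ha : 0 < a)
    (hk : Clk L sg c₀ c₁) (hR : RateC F sg s a b)
    (hder : ∀ x u, HasFDerivAt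
      (fun z => (kap F hS x z).symm (hlo F x z u)) ((1 / 2 : ℝ) • P x u u) 0) {ρ : ℝ}
    (hρ : 0 < ρ) (hsm : ∀ x z, ‖z‖ < ρ → PT F hS P x (mv F x z)) {x y : X}
    (h : L.ep x = L.ep y) : PT F hS P x y := by
  have hy : L.em y ≠ L.em (L.flip x) := by rw [em_flip, h]; exact L.em_ne_ep y
  set q := F.ch (L.flip x) (L.em y) with hq
  obtain ⟨T, hT0, hT1, hT⟩ : ∃ T : ℝ, s ≤ T ∧ 0 ≤ T ∧ Real.exp (-(a * (c₀ * T))) * ‖q‖ < ρ := by
    have h1 : Tendsto (fun T : ℝ => Real.exp (-(a * (c₀ * T))) * ‖q‖) atTop (𝓝 (0 * ‖q‖)) := by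
      refine Tendsto.mul_const _ (Real.tendsto_exp_neg_atTop_nhds_zero.comp ?_)
      exact (tendsto_id.const_mul_atTop hk.pos).const_mul_atTop ha
    rw [zero_mul] at h1
    obtain ⟨T, hT⟩ := ((h1.eventually (gt_mem_nhds hρ)).and
      ((eventually_ge_atTop s).and (eventually_ge_atTop 0))).exists
    exact ⟨T, hT.2.1, hT.2.2, hT.1⟩
  set xT := L.φ T x with hxT
  have hem : L.em xT = L.em x := L.em_φ _ _
  have hep : L.ep xT = L.ep x := ep_φ _ _
  set zT := F.ch (L.flip xT) (L.em y) with hzT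
  have hyT : L.em y ≠ L.em (L.flip xT) := by rw [em_flip, hep, h]; exact L.em_ne_ep y
  have h2 : zT = F.P (-T) (L.flip x) q := by
    rw [hzT, hxT, L.flip_φ, ch_φ F (-T) (L.flip x) hy]
  have h3 : ‖zT‖ < ρ := by
    have e1 := P_neg F T (L.φ (-T) (L.flip x)) q
    rw [← L.φ_add, add_neg_cancel, L.φ_zero] at e1
    have e2 := (hR T hT0 (L.φ (-T) (L.flip x)) ((F.P T (L.φ (-T) (L.flip x))).symm q)).1
    rw [ContinuousLinearEquiv.apply_symm_apply, ← e1, ← h2] at e2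
    have e3 : ‖zT‖ ≤ Real.exp (-(a * (c₀ * T))) * ‖q‖ := by
      rw [Real.exp_neg, inv_mul_eq_div, le_div_iff₀ (Real.exp_pos _), mul_comm]
      refine le_trans (mul_le_mul_of_nonneg_right (Real.exp_le_exp.2 ?_) (norm_nonneg _)) e2
      exact mul_le_mul_of_nonneg_left (hk.lo T _ hT1) ha.le
    exact e3.trans_lt hT
  have h4 : L.em (mv F xT zT) = L.em y := by rw [em_mv, hzT, F.pt_ch _ _ hyT]
  have h5 : L.ep (mv F xT zT) = L.ep xT := ep_mv F _ _
  have p1 : PT F hS P x xT := PT_same F hder hem.symm hep.symm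
  have p2 : PT F hS P xT (mv F xT zT) := hsm xT zT h3
  have p3 : PT F hS P (mv F xT zT) y := PT_same F hder h4 (h5.trans (hep.trans h))
  exact PT.trans F hep.symm (hep.trans h) p1 (PT.trans F h5.symm (h5.trans (hep.trans h)) p2 p3)

/-- **The input of step 8, the rates in a clock.** -/
theorem exists_st8C (F : Aff L) {D : B → B → ℝ} (hS : SmB L D)
    (hD : ∀ x, D (L.em x) (L.ep x) = L.lv x + L.lp x) {a b : ℝ} (ha : 0 < a) (hab : a ≤ b)
    (hp : b < 2 * a) {s : ℝ} (hs : 0 < s) (hk : Clk L sg c₀ c₁) (hR : RateC F sg s a b) :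
    ∃ S : St8 L, S.toAffS = affS F hS := by
  obtain ⟨S, -, -, -, hβ, hmv, hκ, hκ', hg, hr2, hr⟩ := exists_flipD F hS hD ha hab hp hs hk hR
  -- `c22` is `theta`
  have hc22 : ∀ x α α' u u', S.c22 x α α' u u' = theta F D x ![α, α', u, u'] := by
    intro x α α' u u'
    rw [theta_apply, H267.QV.BetaD.c22, hβ]
    rfl
  have htr : ∀ x z α α' u u', trn F hS (theta F D) x z ![α, α', u, u'] =
      S.c22 (S.mv x z) (S.κ' x z α) (S.κ' x z α') (S.κ x z u) (S.κ x z u') := by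
    intro x z α α' u u'
    rw [hc22, trn, act_apply, hmv, hκ, hκ']
    congr 1
    funext i
    fin_cases i <;> rfl
  -- the Lipschitz estimate
  set C := S.M 2 * S.A 3 with hC
  have hlip0 : ∀ x z, ‖z‖ < S.ρ → ∀ v : Fin 4 → E2,
      ‖(trn F hS (theta F D) x z - theta F D x) v‖ ≤ C * ‖z‖ * ∏ i, ‖v i‖ := by
    intro x z hz v
    have e1 : v = ![v 0, v 1, v 2, v 3] := by
      funext i
      fin_cases i <;> rfl
    have e2 := S.c22_lip (v := x) hz (v 0) (v 1) (v 2) (v 3)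
    rw [← htr, hc22, ← e1] at e2
    rw [Fin.prod_univ_four]
    change |trn F hS (theta F D) x z v - theta F D x v| ≤ _
    refine e2.trans (le_of_eq ?_)
    rw [hC]
    ring
  have hC0 : 0 ≤ C := by
    obtain ⟨x⟩ := L.nonempty
    have h1 : 0 ≤ S.M 2 := (norm_nonneg _).trans (S.K_norm x)
    exact mul_nonneg h1 (S.A_nonneg x 3)
  have hlip : ∀ x z, ‖z‖ < S.ρ → ‖trn F hS (theta F D) x z - theta F D x‖ ≤ C * ‖z‖ :=
    fun x z hz => ContinuousMultilinearMap.opNorm_le_bound (by positivity) (hlip0 x z hz)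
  -- parallel
  have hPar : S.Par := S.par_of_c22 fun x z hz α α' u u' => by
    have e1 := par_of_type F hS hD ha hp hk hR hC0 hlip x hz
    rw [← htr, e1, hc22]
  obtain ⟨P, -, hsym, hder, hpar, -⟩ := S.exists_P hPar
  have hF : ∃ ρ, 0 < ρ ∧ ∀ x (z u : E2), ‖z‖ < ρ → ‖u‖ < ρ →
      (x, (z, u)) ∈ SB F ∧ mix F D x ((kap F hS x z).symm (hlo F x z u)) =
        (fderiv ℝ (bta F D x) (z, u)).comp (ContinuousLinearMap.inl ℝ E2 E2) := by
    have hK : ∀ x, (S.K x : E2 →L[ℝ] E2 →L[ℝ] ℝ) = mix F D x := by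
      intro x
      rw [← S.K_eq x, hβ]
      rfl
    refine ⟨S.ρ, S.ρ_pos, fun x z u hz hu => ?_⟩
    have hz2 := hz.trans_le S.ρ_le
    have hu2 := hu.trans_le S.ρ_le
    refine ⟨⟨by rw [mem_ball_zero_iff]; exact hz2.trans hr2,
      by rw [mem_ball_zero_iff]; exact hu2.trans hr2,
      hr x z u (by rw [mem_closedBall_zero_iff]; exact hz2.le)
        (by rw [mem_closedBall_zero_iff]; exact hu2.le)⟩, ?_⟩
    have h1 := S.hol_eq (v := x) hz hu
    rw [hκ, hg] at h1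
    have h2 : S.Ph x (z, u) = (fderiv ℝ (bta F D x) (z, u)).comp
        (ContinuousLinearMap.inl ℝ E2 E2) := by
      rw [H267.QV.BetaD.Ph, hβ]
      rfl
    rw [← h2, ← h1, ← hK]
    rfl
  rw [hκ, hg] at hder
  rw [hκ, hκ', hmv] at hpar
  have hsym' : ∀ x u v, P x u v = P x v u := fun x u v => by
    ext1 α
    exact hsym x u v α
  have hsm : ∀ x z, ‖z‖ < S.ρ → PT F hS P x (mv F x z) := fun x z hz h u α =>
    hpar x z hz u u α
  refine ⟨{
    toAffS := affS F hS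
    P := P
    P_symm := hsym'
    P_cont := P_contQ F hS hF hsym' hder
    P_smul := P_smul F hS hsym' hder
    der := ?_
    par := ?_ }, rfl⟩
  · intro x η hη
    have h1 := hder x (F.ch x η)
    have h2 : (fun z => (kap F hS x z).symm (hlo F x z (F.ch x η))) = fun z : E2 =>
        ((affS F hS).kp x (L.hol (F.pt (L.flip x) z) x)).inverse
          (F.ch (L.hol (F.pt (L.flip x) z) x) η) := by
      funext z
      have e1 : (affS F hS).kp x (L.hol (F.pt (L.flip x) z) x) = kap F hS x z := kp_mv F hS x z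
      rw [e1, ContinuousLinearMap.inverse_equiv, hlo, F.pt_ch x η hη]
      rfl
    rw [h2] at h1
    exact h1
  · intro x y h u α
    have h1 := PT_all F ha hk hR hder S.ρ_pos hsm h h u α
    have h2 : fderiv ℝ (fun z => F.ch (L.flip y) (F.pt (L.flip x) z)) 0 =
        (F.lin (L.flip x) (L.flip y) : E2 →L[ℝ] E2) := by
      have hf : L.em (L.flip x) = L.em (L.flip y) := by rw [em_flip, em_flip, h]
      have e1 : (fun z => F.ch (L.flip y) (F.pt (L.flip x) z)) = fun z =>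
          F.lin (L.flip x) (L.flip y) (z - F.ch (L.flip x) (L.ep (L.flip y))) := by
        funext z
        rw [ch_leaf F hf (F.pt_ne _ _), F.ch_pt]
      rw [e1]
      exact ((F.lin (L.flip x) (L.flip y) : E2 →L[ℝ] E2).hasFDerivAt.comp (0 : E2)
        ((hasFDerivAt_id (0 : E2)).sub_const _)).fderiv
    change P y ((affS F hS).kp x y u) ((affS F hS).kp x y u)
      (fderiv ℝ (fun z => F.ch (L.flip y) (F.pt (L.flip x) z)) 0 α) =
        (affS F hS).kp x y (P x u u α)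
    rw [h2, kp_kpe F hS h]
    exact h1

end Vale.Agent.P207.N4.V.H391.T.C
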