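import Vale.Agent.P207.N5.H391.Theta
import Vale.Agent.P207.H267.Q.C22

/-!
# P207, b < 2a, step 8: the input of the assembly, from the smooth boundary
-/

set_option maxSynthPendingDepth 3

open Set Filter Topology Metric
open scoped ContDiff

noncomputable section

namespace Vale.Agent.P207.N4.V.H391

open Vale.Agent.P207.N4.H391

open Vale.Agent.P207.N3
open Vale.Agent.P207.N4.H391.Q (V4 MM act act_apply fam)
open Vale.Agent.P207.N4.H883 (AffS St8)

variable [Dim]

variable {Γ X B : Type} [Group Γ] [MetricSpace X] [ProperSpace X] [MulAction Γ X]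
  [IsIsometricSMul Γ X] [TopologicalSpace B] [CompactSpace B] [T2Space B] [MulAction Γ B]
  [ContinuousConstSMul Γ B] {L : Leaf Γ X B}

variable (F : Aff L) {D : B → B → ℝ}

theorem D_symm (hD : ∀ x, D (L.em x) (L.ep x) = L.lv x + L.lp x) {ξ η : B} (h : ξ ≠ η) :
    D ξ η = D η ξ := by
  obtain ⟨x, rfl, rfl, -⟩ := L.exists_frame ξ η h 0
  have h1 := hD x
  have h2 := hD (L.flip x)
  rw [em_flip, ep_flip] at h2
  rw [h1, h2]
  simp only [Leaf.lp, L.flip_flip]
  ring

theorem bta_flip (hD : ∀ x, D (L.em x) (L.ep x) = L.lv x + L.lp x) {x : X} {z u : E2}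
    (h : F.pt (L.flip x) z ≠ F.pt x u) : bta F D (L.flip x) (u, z) = bta F D x (z, u) := by
  simp only [bta, L.flip_flip, em_flip, ep_flip]
  rw [D_symm hD (ξ := F.pt x u) h.symm, D_symm hD (ξ := L.ep x) (pt_flip_ne F x z).symm,
    D_symm hD (ξ := F.pt x u) (F.pt_ne x u), D_symm hD (ξ := L.ep x) (L.em_ne_ep x).symm]
  ring

/-- **The data of the linearisation.** -/
theorem exists_flipD (F : Aff L) {D : B → B → ℝ} (hS : SmB L D)
    (hD : ∀ x, D (L.em x) (L.ep x) = L.lv x + L.lp x) {a b : ℝ} (ha : 0 < a) (hab : a ≤ b)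
    (hp : b < 2 * a) (hR : ∀ t, 0 ≤ t → ∀ x q,
      Real.exp (a * t) * ‖q‖ ≤ ‖F.P t x q‖ ∧ ‖F.P t x q‖ ≤ Real.exp (b * t) * ‖q‖) :
    ∃ S : H267.Q.FlipD X E2, S.ψ = ψ L ∧ S.L = L1 F ∧ S.L' = L1' F ∧ S.β = bta F D ∧
      S.mv = mv F ∧ S.κ = kap F hS ∧ S.κ' = kap' F ∧ S.g = hlo F ∧ S.r < 2 ∧
      ∀ (x : X) (z u : E2), z ∈ closedBall (0 : E2) S.r → u ∈ closedBall (0 : E2) S.r →
        F.pt (L.flip x) z ≠ F.pt x u := by
  obtain ⟨r, hr0, hr2, hr⟩ := exists_rad F
  choose M hM using bta_bound F hS hD (hd2 F) hr2 hr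
  obtain ⟨M0, hM0⟩ := mix_inv_bound F hS hD
  obtain ⟨ρ, hρ0, hρr, hρ⟩ := exists_rho F hr0
  obtain ⟨C1, hC10, hC1⟩ := kap_bound F hS ρ
  obtain ⟨C2, hC20, hC2⟩ := kap_symm_bound F hS ρ
  obtain ⟨C3, hC30, hC3⟩ := kap'_bound F ρ
  have hR1 : ∀ x q, Real.exp a * ‖q‖ ≤ ‖F.P 1 x q‖ ∧ ‖F.P 1 x q‖ ≤ Real.exp b * ‖q‖ := by
    intro x q
    have h := hR 1 zero_le_one x q
    rwa [mul_one, mul_one] at h
  have hsub : ∀ (x : X) (p : E2 × E2), p ∈ ball (0 : E2 × E2) r → (x, p) ∈ SB F := by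
    intro x p hp
    rw [mem_ball_zero_iff, Prod.norm_def, max_lt_iff] at hp
    refine ⟨by rw [mem_ball_zero_iff]; linarith [hp.1], by rw [mem_ball_zero_iff]; linarith [hp.2],
      hr x p.1 p.2 ?_ ?_⟩
    · rw [mem_closedBall_zero_iff]; exact hp.1.le
    · rw [mem_closedBall_zero_iff]; exact hp.2.le
  have hcb : ∀ {z : E2}, ‖z‖ < ρ → z ∈ closedBall (0 : E2) ρ := fun h => by
    rw [mem_closedBall_zero_iff]; exact h.le
  refine ⟨{
    ψ := ψ L
    L := L1 F
    L' := L1' F
    lam := Real.exp (-a)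
    Lam := Real.exp b
    lam_pos := Real.exp_pos _
    one_lt_Lam := by rw [Real.one_lt_exp_iff]; linarith
    norm_L := fun v => norm_le_of_rate (Real.exp_pos _).le (hR1 _)
    norm_L_symm := fun v => by
      rw [Real.exp_neg]; exact norm_symm_le_of_rate (Real.exp_pos _) (hR1 _)
    norm_L' := fun v => by
      rw [Real.exp_neg]; exact norm_symm_le_of_rate (Real.exp_pos _) (hR1 _)
    norm_L'_symm := fun v => by
      rw [L1', ContinuousLinearEquiv.symm_symm]
      exact norm_le_of_rate (Real.exp_pos _).le (hR1 _)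
    lam_lt_one := by rw [Real.exp_lt_one_iff]; linarith
    weight := by
      rw [← Real.exp_nat_mul, ← Real.exp_add, Real.exp_lt_one_iff]
      push_cast
      linarith
    r := r
    r_pos := hr0
    ψ_surj := ψ_surj
    β := bta F D
    M := M
    smooth := fun v p hp => ((bta_jc' F hS).contDiffAt (hsub v p hp)).contDiffWithinAt
    bound := fun v k p hp => hM k v p (ball_subset_closedBall hp)
    zero_left := fun v u _ => bta_zero_left F D v u
    zero_right := fun v z _ => bta_zero_right F D v z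
    equi := fun v z u _ _ _ => equi1 F v z u
    K := mixe F hS
    K_eq := fun v => (mixe_coe F hS v).symm
    M0 := M0
    K_symm_le := hM0
    ρ := ρ
    ρ_pos := hρ0
    ρ_le := hρr
    k0 := max C1 (max C2 C3)
    mv := mv F
    κ := kap F hS
    κ' := kap' F
    κ_le := fun v z hz => (hC1 v z (hcb hz)).trans (le_max_left _ _)
    κ_symm_le := fun v z hz =>
      (hC2 v z (hcb hz)).trans ((le_max_left _ _).trans (le_max_right _ _))
    κ'_le := fun v z hz =>
      (hC3 v z (hcb hz)).trans ((le_max_right _ _).trans (le_max_right _ _))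
    g := hlo F
    g_zero := fun v z _ => hlo_zero F v z
    g_deriv := fun v z _ => g_deriv F hS v z
    g_lt := hρ
    base := fun v z₁ hz₁ => Eventually.of_forall fun z u hu =>
      bta_base F D (hr v z₁ u (closedBall_subset_closedBall hρr (hcb hz₁))
        (closedBall_subset_closedBall hρr (hcb hu))) z
    flow_mv := fun v z _ => mv_ψ F v z
    flow_κ := fun v z _ u => flow_kap F hS v z u
    flow_κ' := fun v z _ α => flow_kap' F v z α
    flow_g := fun v u => flow_hlo F hS v u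
    flip := L.flip
    flip_flip := L.flip_flip
    β_flip := fun v z u hz hu => bta_flip F hD (hr v z u
      (by rw [mem_closedBall_zero_iff]; exact hz.le)
      (by rw [mem_closedBall_zero_iff]; exact hu.le)) },
    rfl, rfl, rfl, rfl, rfl, rfl, rfl, rfl, hr2, hr⟩

theorem P_contQ (hS : SmB L D) (hF : ∃ ρ, 0 < ρ ∧ ∀ x (z u : E2), ‖z‖ < ρ → ‖u‖ < ρ →
      (x, (z, u)) ∈ SB F ∧ mix F D x ((kap F hS x z).symm (hlo F x z u)) =
        (fderiv ℝ (bta F D x) (z, u)).comp (ContinuousLinearMap.inl ℝ E2 E2))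
    {P : X → E2 →L[ℝ] E2 →L[ℝ] E2 →L[ℝ] E2} (hsym : ∀ x u v, P x u v = P x v u)
    (hder : ∀ x u, HasFDerivAt (fun z => (kap F hS x z).symm (hlo F x z u))
      ((1 / 2 : ℝ) • P x u u) 0) (u v α : E2) : Continuous fun x => P x u v α := by
  obtain ⟨ρ, hρ, hf⟩ := hF
  -- small `u`
  have h1 : ∀ u : E2, ‖u‖ < ρ → Continuous fun x => P x u u α := by
    intro u hu
    have ho : IsOpen {p : X × E2 | (p.1, (p.2, u)) ∈ SB F} :=
      (isOpen_SB F).preimage (by fun_prop)
    have e1 : JC (fun x (z : E2) => (fderiv ℝ (bta F D x) (z, u)).comp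
        (ContinuousLinearMap.inl ℝ E2 E2)) {p : X × E2 | (p.1, (p.2, u)) ∈ SB F} :=
      ((bta_jc' F hS).fderiv.comp' ((JC.id ho).prodMk (JC.const ho u)) fun p hp => hp).clm
        ((ContinuousLinearMap.compL ℝ E2 (E2 × E2) ℝ).flip (ContinuousLinearMap.inl ℝ E2 E2))
    have hz0 : ‖(0 : E2)‖ < ρ := by rw [norm_zero]; exact hρ
    have e2 : ∀ x, (1 / 2 : ℝ) • P x u u = (mix F D x).inverse ∘L
        fderiv ℝ (fun z : E2 => (fderiv ℝ (bta F D x) (z, u)).comp
          (ContinuousLinearMap.inl ℝ E2 E2)) 0 := by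
      intro x
      have f1 := e1.hasFDerivAt (p := (x, (0 : E2))) (hf x 0 u hz0 hu).1
      have f2 := (mix F D x).inverse.hasFDerivAt.comp (0 : E2) f1
      have f3 : (fun z => (kap F hS x z).symm (hlo F x z u)) =ᶠ[𝓝 0]
          fun z => (mix F D x).inverse ((fderiv ℝ (bta F D x) (z, u)).comp
            (ContinuousLinearMap.inl ℝ E2 E2)) := by
        filter_upwards [isOpen_ball.mem_nhds (mem_ball_self hρ)] with z hz
        rw [mem_ball_zero_iff] at hz
        rw [← (hf x z u hz hu).2, ← mixe_coe F hS x, ContinuousLinearMap.inverse_equiv]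
        exact ((mixe F hS x).symm_apply_apply _).symm
      exact (hder x u).unique (f2.congr_of_eventuallyEq f3)
    have e3 : Continuous fun x => (mix F D x).inverse
        (fderiv ℝ (fun z : E2 => (fderiv ℝ (bta F D x) (z, u)).comp
          (ContinuousLinearMap.inl ℝ E2 E2)) 0 α) := by
      have g1 := e1.fderiv.continuousOn.comp_continuous (f := fun x : X => (x, (0 : E2)))
        (by fun_prop) fun x => (hf x 0 u hz0 hu).1
      exact (mix_inv_cont F hS).clm_apply (g1.clm_apply continuous_const)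
    have e4 : (fun x => P x u u α) = fun x => (2 : ℝ) • (mix F D x).inverse
        (fderiv ℝ (fun z : E2 => (fderiv ℝ (bta F D x) (z, u)).comp
          (ContinuousLinearMap.inl ℝ E2 E2)) 0 α) := by
      funext x
      have g1 := DFunLike.congr_fun (e2 x) α
      change (1 / 2 : ℝ) • P x u u α = (mix F D x).inverse
        (fderiv ℝ (fun z : E2 => (fderiv ℝ (bta F D x) (z, u)).comp
          (ContinuousLinearMap.inl ℝ E2 E2)) 0 α) at g1
      rw [← g1, smul_smul]
      norm_num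
    rw [e4]
    exact e3.const_smul (2 : ℝ)
  -- all `u`
  have h2 : ∀ u : E2, Continuous fun x => P x u u α := by
    intro u
    obtain ⟨s, hs, hsu⟩ : ∃ s : ℝ, 0 < s ∧ ‖s • u‖ < ρ := by
      refine ⟨ρ / (2 * (‖u‖ + 1)), by positivity, ?_⟩
      rw [norm_smul, Real.norm_of_nonneg (by positivity), div_mul_eq_mul_div,
        div_lt_iff₀ (by positivity)]
      nlinarith [norm_nonneg u]
    have e1 : (fun x => P x u u α) = fun x => (s⁻¹ * s⁻¹) • P x (s • u) (s • u) α := by
      funext x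
      simp only [map_smul, smul_apply, smul_smul]
      rw [show s⁻¹ * s⁻¹ * (s * s) = 1 by field_simp, one_smul]
    rw [e1]
    exact (h1 _ hsu).const_smul (s⁻¹ * s⁻¹)
  have e1 : (fun x => P x u v α) = fun x => (1 / 2 : ℝ) • (P x (u + v) (u + v) α -
      P x u u α - P x v v α) := by
    funext x
    have g1 := congrArg (fun T : E2 →L[ℝ] E2 => T α) (hsym x v u)
    simp only [map_add, add_apply, g1]
    module
  rw [e1]
  exact (((h2 (u + v)).sub (h2 u)).sub (h2 v)).const_smul (1 / 2 : ℝ)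


/-- **The input of step 8, strictly quarter pinched.** -/
theorem exists_st8Q (F : Aff L) {D : B → B → ℝ} (hS : SmB L D)
    (hD : ∀ x, D (L.em x) (L.ep x) = L.lv x + L.lp x) {a b : ℝ} (ha : 0 < a) (hab : a ≤ b)
    (hp : b < 2 * a) (hR : ∀ t, 0 ≤ t → ∀ x q,
      Real.exp (a * t) * ‖q‖ ≤ ‖F.P t x q‖ ∧ ‖F.P t x q‖ ≤ Real.exp (b * t) * ‖q‖) :
    ∃ S : St8 L, S.toAffS = affS F hS := by
  obtain ⟨S, -, -, -, hβ, hmv, hκ, hκ', hg, hr2, hr⟩ := exists_flipD F hS hD ha hab hp hR
  -- `c22` is `theta`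
  have hc22 : ∀ x α α' u u', S.c22 x α α' u u' = theta F D x ![α, α', u, u'] := by
    intro x α α' u u'
    rw [theta_apply, H267.Q.BetaD.c22, hβ]
    rfl
  have htr : ∀ x z α α' u u', trn F hS (theta F D) x z ![α, α', u, u'] =
      S.c22 (S.mv x z) (S.κ' x z α) (S.κ' x z α') (S.κ x z u) (S.κ x z u') := by
    intro x z α α' u u'
    rw [hc22, trn, act_apply, hmv, hκ, hκ']
    congr 1
    funext i
    fin_cases i <;> rfl
  -- the Lipschitz estimate
  set C := S.M 2 * S.A 3 with hC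
  have hlip0 : ∀ x z, ‖z‖ < S.ρ → ∀ v : Fin 4 → E2,
      ‖(trn F hS (theta F D) x z - theta F D x) v‖ ≤ C * ‖z‖ * ∏ i, ‖v i‖ := by
    intro x z hz v
    have e1 : v = ![v 0, v 1, v 2, v 3] := by
      funext i
      fin_cases i <;> rfl
    have e2 := S.c22_lip (v := x) hz (v 0) (v 1) (v 2) (v 3)
    rw [← htr, hc22, ← e1] at e2
    rw [Fin.prod_univ_four]
    change |trn F hS (theta F D) x z v - theta F D x v| ≤ _
    refine e2.trans (le_of_eq ?_)
    rw [hC]
    ring
  have hC0 : 0 ≤ C := by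
    obtain ⟨x⟩ := L.nonempty
    have h1 : 0 ≤ S.M 2 := (norm_nonneg _).trans (S.K_norm x)
    exact mul_nonneg h1 (S.A_nonneg x 3)
  have hlip : ∀ x z, ‖z‖ < S.ρ → ‖trn F hS (theta F D) x z - theta F D x‖ ≤ C * ‖z‖ :=
    fun x z hz => ContinuousMultilinearMap.opNorm_le_bound (by positivity) (hlip0 x z hz)
  -- parallel
  have hPar : S.Par := S.par_of_c22 fun x z hz α α' u u' => by
    have e1 := par_of_type F hS hD ha hp hR hC0 hlip x hz
    rw [← htr, e1, hc22]
  obtain ⟨P, -, hsym, hder, hpar, -⟩ := S.exists_P hPar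
  have hF : ∃ ρ, 0 < ρ ∧ ∀ x (z u : E2), ‖z‖ < ρ → ‖u‖ < ρ →
      (x, (z, u)) ∈ SB F ∧ mix F D x ((kap F hS x z).symm (hlo F x z u)) =
        (fderiv ℝ (bta F D x) (z, u)).comp (ContinuousLinearMap.inl ℝ E2 E2) := by
    have hK : ∀ x, (S.K x : E2 →L[ℝ] E2 →L[ℝ] ℝ) = mix F D x := by
      intro x
      rw [← S.K_eq x, hβ]
      rfl
    refine ⟨S.ρ, S.ρ_pos, fun x z u hz hu => ?_⟩
    have hz2 := hz.trans_le S.ρ_le
    have hu2 := hu.trans_le S.ρ_le
    refine ⟨⟨by rw [mem_ball_zero_iff]; exact hz2.trans hr2,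
      by rw [mem_ball_zero_iff]; exact hu2.trans hr2,
      hr x z u (by rw [mem_closedBall_zero_iff]; exact hz2.le)
        (by rw [mem_closedBall_zero_iff]; exact hu2.le)⟩, ?_⟩
    have h1 := S.hol_eq (v := x) hz hu
    rw [hκ, hg] at h1
    have h2 : S.Ph x (z, u) = (fderiv ℝ (bta F D x) (z, u)).comp
        (ContinuousLinearMap.inl ℝ E2 E2) := by
      rw [H267.Q.BetaD.Ph, hβ]
      rfl
    rw [← h2, ← h1, ← hK]
    rfl
  rw [hκ, hg] at hder
  rw [hκ, hκ', hmv] at hpar
  have hsym' : ∀ x u v, P x u v = P x v u := fun x u v => by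
    ext1 α
    exact hsym x u v α
  have hsm : ∀ x z, ‖z‖ < S.ρ → PT F hS P x (mv F x z) := fun x z hz h u α =>
    hpar x z hz u u α
  refine ⟨{
    toAffS := affS F hS
    P := P
    P_symm := hsym'
    P_cont := P_contQ F hS hF hsym' hder
    P_smul := P_smul F hS hsym' hder
    der := ?_
    par := ?_ }, rfl⟩
  · intro x η hη
    have h1 := hder x (F.ch x η)
    have h2 : (fun z => (kap F hS x z).symm (hlo F x z (F.ch x η))) = fun z : E2 =>
        ((affS F hS).kp x (L.hol (F.pt (L.flip x) z) x)).inverse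
          (F.ch (L.hol (F.pt (L.flip x) z) x) η) := by
      funext z
      have e1 : (affS F hS).kp x (L.hol (F.pt (L.flip x) z) x) = kap F hS x z := kp_mv F hS x z
      rw [e1, ContinuousLinearMap.inverse_equiv, hlo, F.pt_ch x η hη]
      rfl
    rw [h2] at h1
    exact h1
  · intro x y h u α
    have h1 := PT_all F ha hR hder S.ρ_pos hsm h h u α
    have h2 : fderiv ℝ (fun z => F.ch (L.flip y) (F.pt (L.flip x) z)) 0 =
        (F.lin (L.flip x) (L.flip y) : E2 →L[ℝ] E2) := by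
      have hf : L.em (L.flip x) = L.em (L.flip y) := by rw [em_flip, em_flip, h]
      have e1 : (fun z => F.ch (L.flip y) (F.pt (L.flip x) z)) = fun z =>
          F.lin (L.flip x) (L.flip y) (z - F.ch (L.flip x) (L.ep (L.flip y))) := by
        funext z
        rw [ch_leaf F hf (F.pt_ne _ _), F.ch_pt]
      rw [e1]
      exact ((F.lin (L.flip x) (L.flip y) : E2 →L[ℝ] E2).hasFDerivAt.comp (0 : E2)
        ((hasFDerivAt_id (0 : E2)).sub_const _)).fderiv
    change P y ((affS F hS).kp x y u) ((affS F hS).kp x y u)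
      (fderiv ℝ (fun z => F.ch (L.flip y) (F.pt (L.flip x) z)) 0 α) =
        (affS F hS).kp x y (P x u u α)
    rw [h2, kp_kpe F hS h]
    exact h1

end Vale.Agent.P207.N4.V.H391
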